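import Vale.Agent.P011Z.TLem
import Vale.Agent.P011.H487.LinMat

/-!
Property (T) for the special linear group over a nonarchimedean local field.
-/

open Matrix Topology

namespace Vale.Agent.P011Z.FF

variable {L : Type} [NontriviallyNormedField L] {n : ℕ}

theorem t2_sl : T2Space (SpecialLinearGroup (Fin n) L) :=
  SpecialLinearGroup.isClosedEmbedding_val.isEmbedding.t2Space

theorem secondCountable_sl [ProperSpace L] :
    SecondCountableTopology (SpecialLinearGroup (Fin n) L) :=
  haveI : SecondCountableTopology (Matrix (Fin n) (Fin n) L) :=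
    inferInstanceAs (SecondCountableTopology (Fin n → Fin n → L))
  SpecialLinearGroup.isClosedEmbedding_val.isEmbedding.secondCountableTopology

theorem locallyCompact_sl [ProperSpace L] :
    LocallyCompactSpace (SpecialLinearGroup (Fin n) L) :=
  haveI : LocallyCompactSpace (Matrix (Fin n) (Fin n) L) :=
    inferInstanceAs (LocallyCompactSpace (Fin n → Fin n → L))
  SpecialLinearGroup.isClosedEmbedding_val.locallyCompactSpace

/-- The bounded parts of the group are compact. -/
theorem isCompact_bdd_sl [ProperSpace L] (R : ℝ) :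
    IsCompact {g : SpecialLinearGroup (Fin n) L | ∀ i j, ‖g i j‖ ≤ R} := by
  have h1 : IsCompact (Set.univ.pi fun _ : Fin n => Set.univ.pi fun _ : Fin n =>
      Metric.closedBall (0 : L) R) :=
    isCompact_univ_pi fun _ => isCompact_univ_pi fun _ => isCompact_closedBall 0 R
  have h2 := (SpecialLinearGroup.isClosedEmbedding_val (n := Fin n) (R := L)).isCompact_preimage h1
  refine (congrArg IsCompact (Set.ext fun g => ?_)).mp h2
  exact ⟨fun h i j => mem_closedBall_zero_iff.1 (h i trivial j trivial),
    fun h i _ j _ => mem_closedBall_zero_iff.2 (h i j)⟩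

namespace TSL

/-- The closed unit ball. -/
def ub (L : Type) [NontriviallyNormedField L] [IsUltrametricDist L] : Subring L where
  carrier := {x | ‖x‖ ≤ 1}
  mul_mem' := fun {x y} hx hy => (norm_mul_le x y).trans (mul_le_one₀ hx (norm_nonneg y) hy)
  one_mem' := norm_one.le
  add_mem' := fun {x y} hx hy => (IsUltrametricDist.norm_add_le_max x y).trans (max_le hx hy)
  zero_mem' := norm_zero.le.trans zero_le_one
  neg_mem' := fun {x} hx => (norm_neg x).le.trans hx

theorem mem_ub [IsUltrametricDist L] {x : L} : x ∈ ub L ↔ ‖x‖ ≤ 1 := Iff.rfl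

/-- The group of the integral matrices. -/
def intg (L : Type) [NontriviallyNormedField L] [IsUltrametricDist L] (n : ℕ) :
    Subgroup (SpecialLinearGroup (Fin n) L) :=
  (SpecialLinearGroup.map (ub L).subtype).range

theorem coe_intg [IsUltrametricDist L] : (intg L n : Set (SpecialLinearGroup (Fin n) L)) =
    {g | ∀ i j, ‖g i j‖ ≤ 1} := by
  ext g
  constructor
  · rintro ⟨h, rfl⟩ i j
    exact (h i j).2
  · intro h
    refine ⟨⟨Matrix.of fun i j => (⟨g i j, h i j⟩ : ub L), ?_⟩, rfl⟩
    apply (ub L).subtype_injective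
    rw [RingHom.map_det, map_one]
    exact g.2

theorem isCompact_intg [ProperSpace L] [IsUltrametricDist L] :
    IsCompact (intg L n : Set (SpecialLinearGroup (Fin n) L)) :=
  coe_intg (L := L) ▸ isCompact_bdd_sl 1

theorem isOpen_intg [IsUltrametricDist L] :
    IsOpen (intg L n : Set (SpecialLinearGroup (Fin n) L)) := by
  rw [coe_intg]
  simp only [Set.ofPred_forall]
  refine isOpen_iInter_of_finite fun i => isOpen_iInter_of_finite fun j => ?_
  have h : Continuous fun g : SpecialLinearGroup (Fin n) L => g i j :=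
    continuous_subtype_val.matrix_elem i j
  simpa only [Set.preimage, mem_closedBall_zero_iff] using
    (IsUltrametricDist.isOpen_closedBall (0 : L) one_ne_zero).preimage h

section alg

variable {F ι : Type} [Field F] [Fintype ι] [DecidableEq ι] {i j k : ι}

theorem val_mul (g h : SpecialLinearGroup ι F) : (g * h).1 = g.1 * h.1 := rfl

theorem tv_val (h : i ≠ j) (t : F) : (SpecialLinearGroup.transvection h t).1 = 1 + single i j t :=
  rfl

theorem tv_rel (h1 : i ≠ j) (h2 : j ≠ k) (h3 : i ≠ k) (s t : F) :
    SpecialLinearGroup.transvection h1 s * SpecialLinearGroup.transvection h2 t =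
      SpecialLinearGroup.transvection h2 t * SpecialLinearGroup.transvection h3 (s * t) *
        SpecialLinearGroup.transvection h1 s := by
  refine Subtype.ext ?_
  simp only [val_mul, tv_val, mul_add, add_mul, Matrix.mul_one,
    Matrix.one_mul, single_mul_single_of_ne _ _ _ _ h3.symm, single_mul_single_same,
    Matrix.zero_mul]
  abel

theorem weyl (h : i ≠ j) {u : F} (hu : u ≠ 0) :
    (1 + single i j u) * (1 + single j i (-u⁻¹)) * (1 + single i j u) =
      1 - single i i 1 - single j j 1 + single i j u - single j i u⁻¹ := by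
  simp only [mul_add, add_mul, Matrix.mul_one,
    single_mul_single_of_ne _ _ _ _ h.symm, single_mul_single_same, mul_neg, neg_mul,
    mul_inv_cancel₀ hu, inv_mul_cancel₀ hu, one_mul, ← single_neg]
  abel

theorem diag2n_eq (h : i ≠ j) {u : F} (hu : u ≠ 0) : SpecialLinearGroup.diag2n h u hu =
    SpecialLinearGroup.transvection h u * SpecialLinearGroup.transvection h.symm (-u⁻¹) *
      SpecialLinearGroup.transvection h u * (SpecialLinearGroup.transvection h (-1) *
        SpecialLinearGroup.transvection h.symm (-(-1)⁻¹) * SpecialLinearGroup.transvection h (-1)) := by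
  refine Subtype.ext ?_
  simp only [val_mul, tv_val]
  rw [weyl h hu, weyl h (neg_ne_zero.2 one_ne_zero), SpecialLinearGroup.diag2n_coe]
  have e : (diagonal fun k => if k = i then u else if k = j then u⁻¹ else 1) =
      1 - single i i 1 - single j j 1 + single i i u + single j j u⁻¹ := by
    ext a b
    by_cases hab : a = b
    · subst hab
      by_cases h1 : a = i
      · subst h1; simp [h.symm]
      · by_cases h2 : a = j
        · subst h2; simp [h, h1]
        · simp [h1, h2, Ne.symm h1, Ne.symm h2]
    · have h1 : ∀ (c : ι) (x : F), single c c x a b = 0 := fun c x =>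
        single_apply_of_ne _ _ _ _ _ fun hc => hab (hc.1.symm.trans hc.2)
      simp [hab, h1]
  rw [e]
  simp only [mul_add, add_mul, mul_sub, sub_mul,
    single_mul_single_of_ne _ _ _ _ h.symm, single_mul_single_of_ne _ _ _ _ h,
    single_mul_single_same, mul_neg, mul_one, one_mul, inv_neg, inv_one, ← single_neg]
  abel

/-- The special linear group is generated by the elementary matrices. -/
theorem eq_top_of_tv [Nontrivial ι] (G : Subgroup (SpecialLinearGroup ι F))
    (h : ∀ (i j : ι) (hij : i ≠ j) (t : F), SpecialLinearGroup.transvection hij t ∈ G)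
    (g : SpecialLinearGroup ι F) : g ∈ G := by
  refine SpecialLinearGroup.diagonal_transvection_induction' (· ∈ G) g
    (fun i j hij c hc => ?_) h fun _ _ => mul_mem
  rw [diag2n_eq]
  exact mul_mem (mul_mem (mul_mem (h _ _ _ _) (h _ _ _ _)) (h _ _ _ _))
    (mul_mem (mul_mem (h _ _ _ _) (h _ _ _ _)) (h _ _ _ _))

theorem conj_tv {s : SpecialLinearGroup ι F} {d : ι → F} (hs : s.1 = diagonal d) (h : i ≠ j)
    (t : F) (m : ℕ) : s ^ m * SpecialLinearGroup.transvection h t * (s ^ m)⁻¹ =
      SpecialLinearGroup.transvection h ((d i / d j) ^ m * t) := by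
  have hd := SpecialLinearGroup.diagonal_neZero d (hs ▸ s.2) j
  have h1 : ∀ t : F, s * SpecialLinearGroup.transvection h t * s⁻¹ =
      SpecialLinearGroup.transvection h (d i / d j * t) := by
    intro t
    rw [mul_inv_eq_iff_eq_mul]
    refine Subtype.ext ?_
    simp only [val_mul, tv_val, hs, mul_add, add_mul, Matrix.mul_one, Matrix.one_mul]
    congr 1
    ext a b
    simp only [diagonal_mul, mul_diagonal, single_apply]
    split_ifs with hc
    · obtain ⟨rfl, rfl⟩ := hc
      field_simp
    · simp
  induction m with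
  | zero => simp
  | succ m ih =>
    rw [pow_succ' s, _root_.mul_inv_rev, pow_succ' (d i / d j), mul_assoc (d i / d j), ← h1, ← ih]
    simp only [mul_assoc]

/-- The embedding in the upper left corner. -/
def corner {κ μ : Type} [Fintype κ] [DecidableEq κ] [Fintype μ] [DecidableEq μ] (e : κ ⊕ μ ≃ ι) :
    SpecialLinearGroup κ F →* SpecialLinearGroup ι F where
  toFun g := ⟨reindex e e (fromBlocks g.1 0 0 1), by
    rw [det_reindex_self, det_fromBlocks_zero₂₁, g.2, det_one, mul_one]⟩
  map_one' := Subtype.ext (by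
    change reindex e e (fromBlocks 1 0 0 1) = 1
    rw [fromBlocks_one, reindex_apply, submatrix_one_equiv])
  map_mul' g h := Subtype.ext (by
    change reindex e e (fromBlocks (g.1 * h.1) 0 0 1) =
      reindex e e (fromBlocks g.1 0 0 1) * reindex e e (fromBlocks h.1 0 0 1)
    simp only [reindex_apply, submatrix_mul_equiv, fromBlocks_multiply, Matrix.mul_zero,
      Matrix.zero_mul, add_zero, zero_add, Matrix.mul_one])

theorem corner_val {κ μ : Type} [Fintype κ] [DecidableEq κ] [Fintype μ] [DecidableEq μ]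
    (e : κ ⊕ μ ≃ ι) (g : SpecialLinearGroup κ F) :
    (corner e g).1 = reindex e e (fromBlocks g.1 0 0 1) := rfl

end alg

variable {ι : Type} [Fintype ι] [DecidableEq ι] {i j : ι}

theorem tendsto_tv (h : i ≠ j) {x : L} (hx : ‖x‖ < 1) (t : L) :
    Filter.Tendsto (fun m : ℕ => SpecialLinearGroup.transvection h (x ^ m * t)) Filter.atTop
      (𝓝 1) := by
  have h1 : Continuous fun t : L => SpecialLinearGroup.transvection h t := by
    refine continuous_induced_rng.2 (continuous_matrix fun a b => ?_)
    change Continuous fun t : L => (1 + single i j t : Matrix ι ι L) a b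
    simp only [Matrix.add_apply, single_apply]
    split_ifs <;> fun_prop
  have h2 := (tendsto_pow_atTop_nhds_zero_of_norm_lt_one hx).mul_const t
  rw [zero_mul] at h2
  have h3 := (h1.tendsto 0).comp h2
  rwa [SpecialLinearGroup.transvection_coeff_zero] at h3

theorem tv_mem_plus {s : SpecialLinearGroup ι L} {d : ι → L} (hs : s.1 = diagonal d) (h : i ≠ j)
    (hd : ‖d i‖ ≠ ‖d j‖) (t : L) : SpecialLinearGroup.transvection h t ∈ plus s := by
  have h0 := SpecialLinearGroup.diagonal_neZero d (hs ▸ s.2)
  refine Subgroup.subset_closure ?_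
  rcases lt_or_gt_of_ne hd with hlt | hlt
  · left
    simp only [conj_tv hs]
    exact tendsto_tv h (by rwa [norm_div, div_lt_one (norm_pos_iff.2 (h0 j))]) t
  · right
    have h1 : ∀ m : ℕ, (s ^ m)⁻¹ * SpecialLinearGroup.transvection h t * s ^ m =
        SpecialLinearGroup.transvection h ((d j / d i) ^ m * t) := by
      intro m
      have h2 := conj_tv hs h ((d j / d i) ^ m * t) m
      rw [← mul_assoc, ← mul_pow, div_mul_div_cancel₀ (h0 j), div_self (h0 i), one_pow,
        one_mul] at h2
      rw [← h2]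
      simp only [mul_assoc, inv_mul_cancel_left, inv_mul_cancel, mul_one]
    simp only [h1]
    exact tendsto_tv h (by rwa [norm_div, div_lt_one (norm_pos_iff.2 (h0 i))]) t

theorem mem_plus [Nontrivial ι] {s : SpecialLinearGroup ι L} {d : ι → L} (hs : s.1 = diagonal d)
    (i₀ : ι) (hd : ∀ k, k ≠ i₀ → ‖d k‖ ≠ ‖d i₀‖) (g : SpecialLinearGroup ι L) : g ∈ plus s := by
  refine eq_top_of_tv _ (fun i j hij t => ?_) g
  by_cases hi : i = i₀
  · subst hi
    exact tv_mem_plus hs hij (hd j hij.symm).symm t
  by_cases hj : j = i₀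
  · subst hj
    exact tv_mem_plus hs hij (hd i hij) t
  have h1 := tv_mem_plus hs hi (hd i hi) t
  have h2 := tv_mem_plus hs (Ne.symm hj) (hd j hj).symm 1
  have h3 := mul_mem h1 h2
  rw [tv_rel hi (Ne.symm hj) hij, mul_one] at h3
  exact ((plus s).mul_mem_cancel_left h2).1 (((plus s).mul_mem_cancel_right h1).1 h3)

theorem corner_bdd {κ μ : Type} [Fintype κ] [DecidableEq κ] [Fintype μ] [DecidableEq μ]
    (e : κ ⊕ μ ≃ ι) {g : SpecialLinearGroup κ L} {R : ℝ} (hR : 1 ≤ R) (hg : ∀ a b, ‖g.1 a b‖ ≤ R)
    (a b : ι) : ‖(corner e g).1 a b‖ ≤ R := by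
  rw [corner_val, reindex_apply, submatrix_apply]
  have h0 : ‖(0 : L)‖ ≤ R := norm_zero.le.trans (zero_le_one.trans hR)
  rcases e.symm a with x | x <;> rcases e.symm b with y | y
  · exact hg x y
  · exact h0
  · exact h0
  · rw [fromBlocks_apply₂₂, one_apply]
    split_ifs
    · exact norm_one.le.trans hR
    · exact h0

theorem el_bdd {p q : Fin 3} (h : p ≠ q) {t : L} {R : ℝ} (hR : 1 ≤ R) (ht : ‖t‖ ≤ R)
    (a b : Fin 3) : ‖(el3 p q h t).1 a b‖ ≤ R := by
  change ‖(1 + single p q t : Matrix (Fin 3) (Fin 3) L) a b‖ ≤ R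
  rw [Matrix.add_apply, one_apply, single_apply]
  split_ifs with h1 h2 h2
  · exact absurd (h2.1.trans (h1.trans h2.2.symm)) h
  · simpa using hR
  · simpa using ht
  · simpa using zero_le_one.trans hR

end TSL

/-- The integral matrices. -/
theorem exists_compact_open_sl [ProperSpace L] [IsUltrametricDist L] :
    ∃ U : Subgroup (SpecialLinearGroup (Fin n) L), IsCompact (U : Set (SpecialLinearGroup (Fin n) L)) ∧
      IsOpen (U : Set (SpecialLinearGroup (Fin n) L)) :=
  ⟨TSL.intg L n, TSL.isCompact_intg, TSL.isOpen_intg⟩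

open TSL in
theorem hasT_sl [ProperSpace L] [IsUltrametricDist L] (hn : 3 ≤ n) (a : Fin 5 → L)
    (ha : ∀ i, ‖a i‖ ≤ 1) (hab : ∀ i j, i ≠ j → ‖a i - a j‖ = 1) :
    HasT (⊤ : Subgroup (SpecialLinearGroup (Fin n) L)) := by
  obtain ⟨m, rfl⟩ := Nat.exists_eq_add_of_le hn
  obtain ⟨w, hw0, hw1⟩ := NormedField.exists_norm_lt_one L
  have hw : w ≠ 0 := norm_pos_iff.1 hw0
  have hR : 1 < ‖w⁻¹‖ := by rw [norm_inv]; exact (one_lt_inv₀ hw0).2 hw1
  have h := hasT_of_sl3 (ub L) hw (fun x => ?_) (fun i => ⟨a i, ha i⟩) (fun i j hij => ?_)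
    (corner (finSumFinEquiv (m := 3) (n := m))) (intg L (3 + m)) isCompact_intg isOpen_intg
    (isCompact_bdd_sl ‖w⁻¹‖)
    (fun t ht => corner_bdd _ hR.le (el_bdd _ hR.le (le_trans ht hR.le)))
    (fun t ht => corner_bdd _ hR.le (el_bdd _ hR.le (le_trans ht hR.le)))
    (fun t ht => corner_bdd _ hR.le (el_bdd _ hR.le
      ((norm_mul_le _ _).trans (mul_le_of_le_one_right (norm_nonneg _) ht)))) hw1.le
  · have : Nontrivial (Fin (3 + m)) := Fin.nontrivial_iff_two_le.2 (by omega)
    refine h.mono fun g _ => mem_plus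
      (d := Sum.elim ![w, 1, w⁻¹] (fun _ => 1) ∘ (finSumFinEquiv (m := 3) (n := m)).symm) ?_
      (finSumFinEquiv (Sum.inl 0)) (fun k hk => ?_) g
    · rw [corner_val, ← diagonal_one, reindex_apply, ← submatrix_diagonal_equiv,
        ← fromBlocks_diagonal]
      rfl
    · obtain ⟨x, rfl⟩ := (finSumFinEquiv (m := 3) (n := m)).surjective k
      simp only [Function.comp_apply, Equiv.symm_apply_apply]
      refine ne_of_gt (lt_of_lt_of_le hw1 ?_)
      rcases x with x | x
      · fin_cases x
        · exact absurd rfl hk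
        · exact norm_one.ge
        · exact hR.le
      · exact norm_one.ge
  · have h2 := ((tendsto_pow_atTop_nhds_zero_of_norm_lt_one hw1).mul_const x).norm
    rw [zero_mul, norm_zero] at h2
    exact (h2.eventually (ge_mem_nhds zero_lt_one)).exists
  · have h1 := hab i j hij
    have h2 : a i - a j ≠ 0 := norm_pos_iff.1 (h1 ▸ zero_lt_one)
    exact IsUnit.of_mul_eq_one ⟨(a i - a j)⁻¹, mem_ub.2 (by rw [norm_inv, h1, inv_one])⟩
      (Subtype.ext (mul_inv_cancel₀ h2))

end Vale.Agent.P011Z.FF
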