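import Vale.Agent.P011Z.FF.Loc
import Vale.Agent.P011Z.FF.TSL
import Vale.Agent.P011Z.Core
import Vale.Agent.P011Z.Main.Abs
import Vale.Agent.P011Z.FF.Lat.Abs

/-!
The normal subgroup theorem for the lattice given by an order at one split place.
-/

open Module Matrix Topology

namespace Vale.Agent.P011Z.FF

open Vale.Agent.P011 Vale.Agent.P011.H738 Vale.Agent.P011.H271 Vale.Agent.P011.H698
  Vale.Agent.P011.H961 Vale.Agent.P011.H74

variable {k K A Ω : Type} [Field k] [GFF k] [Field K] [StarRing K] [Ring A] [StarRing A]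
  [Algebra k K] [Algebra k A] [Algebra K A] [IsScalarTower k K A] [StarModule K A] {n N : ℕ}
  [Field Ω] [Algebra K Ω]

omit [GFF k] in
/-- Five integral elements with different residue classes. -/
theorem exists_five {q : Place k} (hq : 5 ≤ qq q) : ∃ a : Fin 5 → q.comp, (∀ i, ‖a i‖ ≤ 1) ∧
    ∀ i j, i ≠ j → ‖a i - a j‖ = 1 := by
  have := q.normalized.1
  obtain ⟨e⟩ : Nonempty (Fin 5 ↪ integers q.abv q.nonarch ⧸ maxIdeal q.abv q.nonarch) := by
    have := Fintype.ofFinite (integers q.abv q.nonarch ⧸ maxIdeal q.abv q.nonarch)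
    refine Function.Embedding.nonempty_of_card_le ?_
    rw [Fintype.card_fin, ← Nat.card_eq_fintype_card]
    exact hq
  choose x hx using fun i => Ideal.Quotient.mk_surjective (e i)
  refine ⟨fun i => algebraMap k q.comp (x i : k), fun i => ?_, fun i j hij => ?_⟩
  · rw [norm_alg]
    exact (x i).2
  · rw [← map_sub, norm_alg]
    refine le_antisymm (x i - x j).2 (not_lt.1 fun h => hij (e.injective ?_))
    rw [← hx i, ← hx j]
    exact Ideal.Quotient.eq.2 h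

namespace Lat

omit [GFF k] in
theorem neZero_of_anis (hA : Anis k K A n) (hn : n ≠ 0) (B : Basis (Fin N) k A) : NeZero N := by
  refine ⟨?_⟩
  rintro rfl
  have h1 := H519.finrank_of_anis hA
  rw [finrank_eq_card_basis B, Fintype.card_fin] at h1
  have : 0 < 2 * n ^ 2 := by positivity
  omega

/-- The group of an order is commensurated. -/
theorem comm_order (hA : Anis k K A n) (hn : n ≠ 0) {q : Place k}
    (f : A →ₐ[K] Matrix (Fin n) (Fin n) Ω) (B : Basis (Fin N) k A) {Lam : Subring A}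
    (H : IsOrdR B (OSF {q}) Lam) (x : GA f) :
    ((GL' f Lam).comap (MulAut.conj x).toMonoidHom).relIndex (GL' f Lam) ≠ 0 := by
  have hst := H519.star_smul_of_anis hA
  have := neZero_of_anis hA hn B
  obtain ⟨T, hT, ε, hε, -, hTL⟩ := order_mem (B := B) (q := q) H
  obtain ⟨M, -, hM, hxM⟩ := exists_bn (B := B) ({q} : Set (Place k)) (ua_mul_star (x : UA A))
    (ua_star_mul (x : UA A))
  obtain ⟨T', hTT', ε', hε', -, -, hc⟩ := conj_level (S := ({q} : Set (Place k))) hst hM hT hε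
  obtain ⟨d, hd, hup⟩ := H.up
  obtain ⟨κ, hκ, cl, hcl⟩ := exists_class (B := B) (q := q) hst (hT.mono hTT') hε' hd
  refine relIndex_ne_zero_of_class _ _ (fun γ : GA f => cl (((γ : UA A) : Aˣ) : A))
    fun a ha b hb hab => ?_
  have h1 := hcl _ _ (hup _ (mem_GL'.1 ha).1) (hup _ (mem_GL'.1 hb).1) (ua_star_mul (a : UA A)) hab
  have h2 := hTL _ (hc _ hxM _ h1)
  rw [← ua_inv, ← ua_inv] at h2
  exact mem_GL'.2 ⟨h2, H.star_mem _ h2⟩

end Lat

/-- The units of an order meet finitely many cosets of a noncentral normal subgroup. -/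
theorem lat_ff (hA : Anis k K A n) (hn : 3 ≤ n) {q : Place k} (hq : 5 ≤ qq q)
    {φ : K →ₐ[k] q.comp} {g : A →+* Matrix (Fin n) (Fin n) q.comp}
    (hφ : ∀ c : K, g (algebraMap K A c) = algebraMap q.comp _ (φ c))
    (hspan : Submodule.span q.comp (Set.range fun x : A => (g x, (g (star x)).transpose)) = ⊤)
    (f : A →ₐ[K] Matrix (Fin n) (Fin n) Ω) (B : Basis (Fin N) k A) {Lam : Subring A}
    (H : IsOrdR B (OSF {q}) Lam) (hOL : ∀ c ∈ OSF {q}, c • (1 : A) ∈ Lam) {M : Subgroup (UA A)}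
    (hMG : M ≤ GA f) (hM : ∀ γ ∈ GA f, ∀ x ∈ M, γ * x * γ⁻¹ ∈ M) (hnc : ∃ u ∈ M, u ∈ nzU A) :
    ∃ F : Set (UA A), F.Finite ∧ ∀ γ ∈ GA f, ((γ : Aˣ) : A) ∈ Lam → ∃ x ∈ F, x⁻¹ * γ ∈ M := by
  have hn0 : n ≠ 0 := by omega
  have hf : ∀ c : k, g (algebraMap k A c) = algebraMap q.comp _ (algebraMap k q.comp c) := by
    intro c
    rw [IsScalarTower.algebraMap_apply k K A, hφ, φ.commutes]
  obtain ⟨D, hD, hcoc⟩ := one_SL hA hn0 hφ hspan B H hOL
  have hdet : ∀ x : A, (f x).det = 1 ↔ (g x).det = 1 := det_eq_one_iff hA hn0 _ hφ f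
  obtain ⟨a, ha1, ha2⟩ := exists_five hq
  let _ := nnfPlace q
  have hlm := lm_split hA (by omega) f B hφ
  have hdn := dense_normal hlm (locS_gl (by omega)) hMG hM hnc
  have : T2Space (SpecialLinearGroup (Fin n) q.comp) := t2_sl
  have : SecondCountableTopology (SpecialLinearGroup (Fin n) q.comp) := secondCountable_sl
  have : LocallyCompactSpace (SpecialLinearGroup (Fin n) q.comp) := locallyCompact_sl
  obtain ⟨U, hUc, hUo⟩ := exists_compact_open_sl (L := q.comp) (n := n)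
  have hemb := SpecialLinearGroup.isClosedEmbedding_toGL (n := Fin n) (R := q.comp)
  obtain ⟨F, hF, h⟩ := Lat.core_one (toSL g fun x => (hdet x).mp)
    (fun γ γ' h => Subtype.ext (Subtype.ext (Units.ext (hlm.inj (congrArg Subtype.val h)))))
    (GL' f Lam) (M.subgroupOf (GA f)) ⟨fun x hx γ => hM γ γ.2 x hx⟩
    (fun C hC => by
      have h1 := one_GL_disc hA hf hspan B H _ (hC.image hemb.continuous)
      refine Set.Finite.of_finite_image (f := fun γ : GA f => ((γ : UA A) : Aˣ))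
        ((h1.image (fun γ : UL Lam => (γ : Aˣ))).subset ?_) ?_
      · rintro _ ⟨γ, hγ, rfl⟩
        exact ⟨⟨((γ : UA A) : Aˣ), hγ.1⟩, ⟨_, hγ.2, toSL_GL g _ γ⟩, rfl⟩
      · intro γ _ γ' _ h
        exact Subtype.ext (Subtype.ext h))
    ⟨_, hemb.isCompact_preimage hD, fun s => by
      obtain ⟨γ, hγ, hs⟩ := hcoc (s : GL (Fin n) q.comp) s.2
      have hγU : (γ : Aˣ) ∈ UA A := γ.2.2.2
      have hγG : (⟨(γ : Aˣ), hγU⟩ : UA A) ∈ GA f := mem_GA.mpr ((hdet _).mpr hγ)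
      refine ⟨⟨⟨(γ : Aˣ), hγU⟩, hγG⟩, γ.2, ?_⟩
      rw [Set.mem_preimage, map_mul, toSL_GL]
      exact hs⟩
    (fun s => by
      rw [hemb.isInducing.closure_eq_preimage_closure_image, Set.mem_preimage]
      have h1 := hdn (a := ⟨(s : GL (Fin n) q.comp), Subgroup.mem_top _⟩) s.2
      have h2 := image_closure_subset_closure_image continuous_subtype_val ⟨_, h1, rfl⟩
      refine closure_mono ?_ h2
      rintro _ ⟨_, ⟨u, hu, rfl⟩, rfl⟩
      exact ⟨_, ⟨⟨u, hMG hu⟩, hu, rfl⟩, toSL_GL g _ _⟩)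
    (fun x _ => Lat.comm_order hA hn0 f B H x) U hUc hUo (hasT_sl hn a ha1 ha2)
  refine ⟨Subtype.val '' F, hF.image _, fun γ hγ hL => ?_⟩
  obtain ⟨x, hx, h1⟩ := h ⟨γ, hγ⟩ (mem_GL'.2 ⟨hL, H.star_mem _ hL⟩)
  exact ⟨x, ⟨x, hx, rfl⟩, h1⟩

/-- A noncentral normal subgroup has finite index in a normal subgroup which contains a level. -/
theorem sat_ff (hA : Anis k K A n) (hn : 3 ≤ n) {q : Place k} (hq : 5 ≤ qq q)
    {φ : K →ₐ[k] q.comp} {g : A →+* Matrix (Fin n) (Fin n) q.comp}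
    (hφ : ∀ c : K, g (algebraMap K A c) = algebraMap q.comp _ (φ c))
    (hspan : Submodule.span q.comp (Set.range fun x : A => (g x, (g (star x)).transpose)) = ⊤)
    (f : A →ₐ[K] Matrix (Fin n) (Fin n) Ω) (B : Basis (Fin N) k A) {M : Subgroup (UA A)}
    (hMG : M ≤ GA f) (hM : ∀ γ ∈ GA f, ∀ x ∈ M, γ * x * γ⁻¹ ∈ M) (hnc : ∃ u ∈ M, u ∈ nzU A) :
    ∃ S : Subgroup (UA A), S ≤ GA f ∧ (∀ γ ∈ GA f, ∀ x ∈ S, γ * x * γ⁻¹ ∈ S) ∧
      (S : Set (UA A)) ∈ FLv f B {q} ∧ M.relIndex S ≠ 0 := by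
  have hst := H519.star_smul_of_anis hA
  have hSL : StarLinR k A := ⟨hst⟩
  have hq1 : ({q} : Finset (Place k)).Nonempty := ⟨q, Finset.mem_singleton_self q⟩
  have := Lat.neZero_of_anis hA (by omega) B
  obtain ⟨d, -, hd⟩ := exists_denR B (OSF {q}) (OSF_den hq1)
  obtain ⟨H, -⟩ := isOrdR_ordO B hd
  obtain ⟨F, hF, h⟩ := lat_ff hA hn hq hφ hspan f B H (fun c hc => smul_one_mem_ordO B hc)
    hMG hM hnc
  have hlev := lev_FLv (f := f) (B := B) hst ({q} : Set (Place k))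
  obtain ⟨Sg, h1, h2, h3⟩ := MA.exists_sat (GA f) M hM (FLv f B {q})
    (fun L hL => hlev.one L hL)
    (fun L hL => by
      obtain ⟨L', hL', h1⟩ := hlev.mul L hL
      refine Filter.mem_map.2 (Filter.mem_of_superset (Filter.prod_mem_prod hL' hL') ?_)
      rintro ⟨x, y⟩ ⟨hx, hy⟩
      exact h1 x hx y hy)
    (fun L hL => by
      obtain ⟨T, hT, ε, hε, -, h1⟩ := mem_FLv.mp hL
      obtain ⟨ε', hε', -, hle1, -, hstar⟩ := mul_level (S := ({q} : Set (Place k))) hst hT hε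
      refine mem_FLv.mpr ⟨T, hT, ε', hε', hle1, fun u hu hu' => h1 u⁻¹ ((GA f).inv_mem hu) ?_⟩
      rw [ua_inv]
      exact hstar _ hu')
    (fun γ _ L hL => hlev.conj γ L hL) (GA_mem _) hF
    (by
      obtain ⟨T, hT, ε, hε, hε1, hTL⟩ := order_mem (B := B) (q := q) H
      exact mem_FLv.mpr ⟨T, hT, ε, hε, hε1, fun u hu hu' => h u hu (hTL _ hu')⟩)
  refine ⟨Sg ⊓ GA f, inf_le_right, fun γ hγ x hx => ⟨h3 γ hγ x hx.1,
    (inferInstance : (GA f).Normal).conj_mem x hx.2 γ⟩, Filter.inter_mem h2 (GA_mem _),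
    fun h0 => h1 (Subgroup.relIndex_eq_zero_of_le_right inf_le_left h0)⟩

end Vale.Agent.P011Z.FF
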