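import Mathlib

/-!
Open normal subgroups have finite index, abstractly.
-/

open Topology commutatorElement

namespace Vale.Agent.P011Z.FF

namespace RemAbs

variable {X : Type*} [Group X] [TopologicalSpace X] [IsTopologicalGroup X]

lemma conj_cl (A B : Subgroup X) (h : ∀ a ∈ A, ∀ b ∈ B, a * b * a⁻¹ ∈ B) :
    ∀ a ∈ A.topologicalClosure, ∀ b ∈ B.topologicalClosure,
      a * b * a⁻¹ ∈ B.topologicalClosure := by
  intro a ha b hb
  have hc : Continuous fun z : X × X => z.1 * z.2 * z.1⁻¹ := by fun_prop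
  exact map_mem_closure₂ (f := fun a b : X => a * b * a⁻¹) hc ha hb h

lemma single_comm {P : Type*} [DecidableEq P] {U : P → Type*} [∀ v, Group (U v)] (v : P)
    (a : U v) (y : ∀ v, U v) :
    (Pi.mulSingle v ⁅a, y v⁆ : ∀ v, U v) = Pi.mulSingle v a * y * (Pi.mulSingle v a)⁻¹ * y⁻¹ := by
  funext w
  by_cases hw : w = v
  · subst hw
    simp [commutatorElement_def]
  · simp [hw]

end RemAbs

variable {G : Type} [Group G] {P : Type} [Finite P] {U : P → Type}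
  [∀ v, Group (U v)] [∀ v, TopologicalSpace (U v)] [∀ v, IsTopologicalGroup (U v)]

open RemAbs in
theorem rem_fin (ι : ∀ v, G →* U v) (hd : DenseRange fun (g : G) (v : P) => ι v g)
    (G₀ S : Subgroup G) [G₀.Normal] (hS : S ≤ G₀) (hn : ∀ g ∈ G₀, ∀ s ∈ S, g * s * g⁻¹ ∈ S)
    {O : Set (∀ v, U v)} (hO : O ∈ 𝓝 1) (hOS : ∀ g ∈ G₀, (fun v => ι v g) ∈ O → g ∈ S)
    (NC : ∀ v, Set (U v))
    (hnc : ∀ O' ∈ 𝓝 (1 : ∀ v, U v), ∃ a : G, ∃ u ∈ G₀, (fun v => ι v a) ∈ O' ∧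
      (fun v => ι v u) ∈ O' ∧ ∀ v, ι v ⁅a, u⁆ ∈ NC v)
    (E : ∀ v, Subgroup (U v))
    (h1 : ∀ v, ∀ H : Subgroup (U v), (∀ e ∈ E v, ∀ x ∈ H, e * x * e⁻¹ ∈ H) →
      (∃ x ∈ H, x ∈ NC v) → E v ≤ H)
    (h2 : ∀ v, ∃ C : Set (U v), IsCompact C ∧ ∀ g ∈ G₀, ∃ e ∈ E v, e⁻¹ * ι v g ∈ C) :
    S.relIndex G₀ ≠ 0 := by
  classical
  let j : G →* (∀ v, U v) := MonoidHom.pi ι
  have hj : ∀ g, j g = fun v => ι v g := fun _ => rfl
  obtain ⟨A, hA⟩ : ∃ A, A = (G₀.map j).topologicalClosure := ⟨_, rfl⟩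
  obtain ⟨B, hB⟩ : ∃ B, B = (S.map j).topologicalClosure := ⟨_, rfl⟩
  have hAm : ∀ g ∈ G₀, j g ∈ A := fun g hg => hA ▸ Subgroup.le_topologicalClosure _ ⟨g, hg, rfl⟩
  have hBA : B ≤ A := by
    rw [hA, hB]
    exact Subgroup.topologicalClosure_mono (Subgroup.map_mono hS)
  have hAc : IsClosed (A : Set (∀ v, U v)) := hA ▸ Subgroup.isClosed_topologicalClosure _
  have hAn : ∀ p, ∀ x ∈ A, p * x * p⁻¹ ∈ A := by
    intro p x hx
    rw [hA] at hx ⊢
    refine conj_cl j.range _ ?_ p (hd p) x hx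
    rintro _ ⟨g, rfl⟩ _ ⟨h, hh, rfl⟩
    exact ⟨_, (inferInstance : G₀.Normal).conj_mem h hh g, by rw [map_mul, map_mul, map_inv]⟩
  have hBn : ∀ p ∈ A, ∀ x ∈ B, p * x * p⁻¹ ∈ B := by
    rw [hA, hB]
    refine conj_cl _ _ ?_
    rintro _ ⟨g, hg, rfl⟩ _ ⟨h, hh, rfl⟩
    exact ⟨_, hn g hg h hh, by rw [map_mul, map_mul, map_inv]⟩
  have hOB : ∀ x ∈ A, x ∈ interior O → x ∈ B := by
    intro x hx hxO
    rw [hA] at hx
    rw [hB]
    refine closure_mono ?_ (isOpen_interior.inter_closure ⟨hxO, hx⟩)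
    rintro _ ⟨hy, g, hg, rfl⟩
    exact ⟨g, hOS g hg (interior_subset hy), rfl⟩
  have hcA : ∀ v, ∀ a : G, ∀ u ∈ G₀, Pi.mulSingle v (ι v ⁅a, u⁆) ∈ A := by
    intro v a u hu
    rw [map_commutatorElement]
    have h3 := single_comm v (ι v a) (j u)
    rw [hj] at h3
    rw [h3]
    exact A.mul_mem (hAn _ _ (hAm u hu)) (A.inv_mem (hAm u hu))
  have hEA : ∀ v, ∀ e ∈ E v, Pi.mulSingle v e ∈ A := by
    intro v
    refine h1 v (A.comap (MonoidHom.mulSingle U v)) (fun e _ x hx => ?_) ?_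
    · rw [Subgroup.mem_comap, map_mul, map_mul, map_inv]
      exact hAn _ _ hx
    · obtain ⟨a, u, hu, -, -, h3⟩ := hnc Set.univ Filter.univ_mem
      exact ⟨_, hcA v a u hu, h3 v⟩
  have hEB : ∀ v, ∀ e ∈ E v, Pi.mulSingle v e ∈ B := by
    intro v
    refine h1 v (B.comap (MonoidHom.mulSingle U v)) (fun e he x hx => ?_) ?_
    · rw [Subgroup.mem_comap, map_mul, map_mul, map_inv]
      exact hBn _ (hEA v e he) _ hx
    · have hc : Continuous fun z : (∀ v, U v) × (∀ v, U v) =>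
          (Pi.mulSingle v ⁅z.1 v, z.2 v⁆ : ∀ v, U v) := by
        refine (continuous_mulSingle v).comp ?_
        simp only [commutatorElement_def]
        fun_prop
      have h3 : (fun z : (∀ v, U v) × (∀ v, U v) =>
          (Pi.mulSingle v ⁅z.1 v, z.2 v⁆ : ∀ v, U v)) ⁻¹' interior O ∈ 𝓝 (1, 1) := by
        refine hc.continuousAt.preimage_mem_nhds ?_
        simpa using hO
      rw [nhds_prod_eq, Filter.mem_prod_self_iff] at h3
      obtain ⟨O', hO', h4⟩ := h3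
      obtain ⟨a, u, hu, ha1, hu1, h5⟩ := hnc O' hO'
      refine ⟨_, hOB _ (hcA v a u hu) ?_, h5 v⟩
      rw [map_commutatorElement]
      exact h4 (Set.mk_mem_prod ha1 hu1)
  choose C hC hC' using h2
  have hK : IsCompact (Set.pi Set.univ C ∩ A) := (isCompact_univ_pi hC).inter_right hAc
  obtain ⟨T, hT, hTK⟩ := hK.elim_nhds_subcover (fun y => {x | x * y⁻¹ ∈ interior O})
    (fun y _ => by
      have hc : Continuous fun x : ∀ v, U v => x * y⁻¹ := by fun_prop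
      refine hc.continuousAt.preimage_mem_nhds ?_
      simpa using hO)
  have hcov : ∀ g ∈ G₀, ∃ y ∈ T, j g * y⁻¹ ∈ B := by
    intro g hg
    choose e he he' using fun v => hC' v g hg
    have h3 : e ∈ B := Subgroup.pi_mem_of_mulSingle_mem _ fun v => hEB v _ (he v)
    have h4 : e⁻¹ * j g ∈ A := A.mul_mem (A.inv_mem (hBA h3)) (hAm g hg)
    have h5 := hTK ⟨fun v _ => he' v, h4⟩
    simp only [Set.mem_iUnion] at h5
    obtain ⟨y, hy, h6⟩ := h5
    refine ⟨y, hy, ?_⟩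
    have h7 := B.mul_mem h3 (hOB _ (A.mul_mem h4 (A.inv_mem (hT y hy).2)) h6)
    rwa [mul_assoc, mul_inv_cancel_left] at h7
  have hBS : ∀ g ∈ G₀, j g ∈ B → g ∈ S := by
    intro g hg hgB
    rw [hB] at hgB
    have hc : Continuous fun p : ∀ v, U v => p⁻¹ * j g := by fun_prop
    obtain ⟨_, hp, s, hs, rfl⟩ := mem_closure_iff_nhds.1 hgB _
      (hc.continuousAt.preimage_mem_nhds (t := O) (by simpa using hO))
    have h3 := S.mul_mem hs (hOS _ (G₀.mul_mem (G₀.inv_mem (hS hs)) hg) (by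
      rw [← hj, map_mul, map_inv]
      exact hp))
    rwa [mul_inv_cancel_left] at h3
  choose! f hf hf' using hcov
  have hfin : Finite (G₀ ⧸ S.subgroupOf G₀) := by
    refine Finite.of_injective (fun q : G₀ ⧸ S.subgroupOf G₀ =>
      (⟨f (q.out : G)⁻¹, hf _ (G₀.inv_mem q.out.2)⟩ : T)) fun q q' hq => ?_
    have h3 : f (q.out : G)⁻¹ = f (q'.out : G)⁻¹ := congrArg Subtype.val hq
    have h4 := B.mul_mem (hf' _ (G₀.inv_mem q.out.2)) (B.inv_mem (hf' _ (G₀.inv_mem q'.out.2)))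
    rw [h3, mul_inv_rev, inv_inv, mul_assoc, inv_mul_cancel_left, ← map_inv, ← map_mul,
      inv_inv] at h4
    rw [← q.out_eq, ← q'.out_eq]
    refine QuotientGroup.eq.2 ?_
    rw [Subgroup.mem_subgroupOf]
    exact hBS _ (G₀.mul_mem (G₀.inv_mem q.out.2) q'.out.2) h4
  exact Subgroup.index_ne_zero_of_finite

end Vale.Agent.P011Z.FF
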