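import Vale.Agent.P011.H961.SA

/-!
Cocompactness for the special unitary group.
-/

open Module Matrix Topology

namespace Vale.Agent.P011Z.FF

open Vale.Agent.P011 Vale.Agent.P011.H738 Vale.Agent.P011.H271 Vale.Agent.P011.H698
  Vale.Agent.P011.H961

section bd

variable {k K A : Type} [Field k] [GFF k] [Field K] [Ring A] [Algebra k K] [Algebra k A]
  [Algebra K A] [IsScalarTower k K A] {N : ℕ} (B : Basis (Fin N) k A)

omit [Field K] [Algebra k K] [Algebra K A] [IsScalarTower k K A] in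
theorem finite_bd (c : Place k → ℝ) (hc : {w | c w ≠ 1}.Finite) :
    {y : A | ∀ w, Bd B w (c w) y}.Finite := by
  have h1 := place_finite_le c (hc.subset fun w hw => ne_of_gt hw)
  refine Set.Finite.of_finite_image (f := fun y i => B.repr y i)
    ((Set.Finite.pi' fun _ : Fin N => h1).subset ?_) fun x _ y _ h => B.ext_elem (congrFun h)
  rintro _ ⟨y, hy, rfl⟩ i w
  exact hy w i

/-- The norm of a bounded element is bounded. -/
theorem norm_bd [FiniteDimensional K A] : ∃ (C D : Place k → ℝ) (m : ℕ), {w | C w ≠ 1}.Finite ∧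
    {w | D w ≠ 1}.Finite ∧ ∀ w c x, 0 ≤ c → Bd B w c x →
      Bd B w (C w * (D w * c) ^ m) (algebraMap K A (LinearMap.det (LinearMap.mulLeft K x))) := by
  classical
  let e := Module.finBasis K A
  obtain ⟨C1, h1, h1', h1''⟩ := mul_bd B
  obtain ⟨C0, h0, h0', h0''⟩ := exists_sup_family B fun _ : Unit => (1 : A)
  let L : Fin (finrank K A) → Fin (finrank K A) → A →ₗ[k] A := fun i j =>
    ((Algebra.linearMap K A).restrictScalars k).comp
      (((e.coord i).restrictScalars k).comp (LinearMap.mulRight k (e j)))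
  obtain ⟨C2, h2, h2', h2''⟩ := exists_sup_family B
    fun p : Fin (finrank K A) × Fin (finrank K A) × Fin N => L p.1 p.2.1 (B p.2.2)
  refine ⟨C0, fun w => C1 w * C2 w, finrank K A, h0', (h1'.union h2').subset fun w hw => ?_,
    fun w c x hc hx => ?_⟩
  · by_contra hcon
    simp only [Set.mem_union, Set.mem_ofPred_eq, not_or, not_not] at hcon
    exact hw (by simp only [hcon.1, hcon.2, mul_one])
  have hC0 : 0 ≤ C0 w := zero_le_one.trans (h0 w)
  have hC1 : 0 ≤ C1 w := zero_le_one.trans (h1 w)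
  have hC2 : 0 ≤ C2 w := zero_le_one.trans (h2 w)
  have h3 : ∀ i j, Bd B w (c * C2 w) (L i j x) := by
    intro i j
    rw [← B.sum_repr x, map_sum]
    refine Bd.sum (mul_nonneg hc hC2) _ fun l _ => ?_
    rw [map_smul]
    exact (h2'' w (i, j, l)).smul (hx l)
  have h4 : ∀ (y : Fin (finrank K A) → K), (∀ i, Bd B w (c * C2 w) (algebraMap K A (y i))) →
      ∀ s : Finset (Fin (finrank K A)),
        Bd B w (C0 w * (C1 w * C2 w * c) ^ s.card) (algebraMap K A (∏ i ∈ s, y i)) := by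
    intro y hy s
    induction s using Finset.induction_on with
    | empty => simpa using h0'' w ()
    | insert i s hi ih =>
      rw [Finset.prod_insert hi, map_mul, Finset.card_insert_of_notMem hi]
      exact (h1'' w _ _ _ _ (by positivity) (by positivity) (hy i) ih).mono (le_of_eq (by ring))
  rw [← LinearMap.det_toMatrix e, Matrix.det_apply, map_sum]
  refine Bd.sum (by positivity) _ fun σ _ => ?_
  have h5 := h4 (fun i => LinearMap.toMatrix e e (LinearMap.mulLeft K x) (σ i) i)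
    (fun i => by
      rw [LinearMap.toMatrix_apply]
      exact h3 (σ i) i) Finset.univ
  rw [Finset.card_univ, Fintype.card_fin] at h5
  rcases Int.units_eq_one_or (Equiv.Perm.sign σ) with h | h
  · rwa [h, one_smul]
  · rw [h, Units.neg_smul, one_smul, map_neg]
    exact h5.neg

end bd

variable {k K A Ω : Type} [Field k] [GFF k] [Field K] [StarRing K] [Ring A] [StarRing A]
  [Algebra k K] [Algebra k A] [Algebra K A] [IsScalarTower k K A] [StarModule K A] {n N : ℕ}
  [Field Ω] [Algebra K Ω]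

omit [GFF k] in
theorem norm_eq (hA : Anis k K A n) (hn : n ≠ 0) (f : A →ₐ[K] Matrix (Fin n) (Fin n) Ω) (x : A) :
    algebraMap K Ω (LinearMap.det (LinearMap.mulLeft K x)) = (f x).det ^ n :=
  haveI := hA.simple
  haveI := hA.central
  H74.det_base hA.finrank_eq hn (algebraMap K Ω) (f : A →+* Matrix (Fin n) (Fin n) Ω)
    (fun c => f.commutes c) (H519.span_range_eq_top hA.finrank_eq hn (algebraMap K Ω)
      (f : A →+* Matrix (Fin n) (Fin n) Ω) fun c => f.commutes c) x

/-- The unitary elements with bounded norm meet finitely many cosets. -/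
theorem exists_reps (hA : Anis k K A n) (hn : n ≠ 0) (f : A →ₐ[K] Matrix (Fin n) (Fin n) Ω)
    (B : Basis (Fin N) k A) (c : Place k → ℝ) (hc : {w | c w ≠ 1}.Finite) :
    ∃ C : Place k → ℝ, (∀ w, 1 ≤ C w) ∧ {w | C w ≠ 1}.Finite ∧ ∀ γ : UA A, (∀ w, Bd B w (c w)
      (algebraMap K A (LinearMap.det (LinearMap.mulLeft K ((γ : Aˣ) : A))))) →
      ∃ r : UA A, r * γ ∈ GA f ∧ ∀ w, Bd B w (C w) ((r : Aˣ) : A) := by
  classical
  have hsim := hA.simple
  let P : Set Ω := {d | ∃ γ : UA A, (f ((γ : Aˣ) : A)).det = d ∧ ∀ w, Bd B w (c w)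
    (algebraMap K A (LinearMap.det (LinearMap.mulLeft K ((γ : Aˣ) : A))))}
  have hP : P.Finite := by
    have h1 := (finite_bd B c hc).preimage (algebraMap K A).injective.injOn
    refine (h1.biUnion (t := fun y => ((Polynomial.nthRoots n (algebraMap K Ω y)).toFinset : Set Ω))
      fun y _ => Finset.finite_toSet _).subset ?_
    rintro _ ⟨γ, rfl, hγ⟩
    refine Set.mem_biUnion (x := LinearMap.det (LinearMap.mulLeft K ((γ : Aˣ) : A))) hγ ?_
    rw [Finset.mem_coe, Multiset.mem_toFinset, Polynomial.mem_nthRoots (Nat.pos_of_ne_zero hn),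
      norm_eq hA hn f]
  have := hP.to_subtype
  have h0 : ∀ d : P, ∃ γ : UA A, (f ((γ : Aˣ) : A)).det = d := fun d => d.2.imp fun _ h => h.1
  choose rp hrp using h0
  obtain ⟨C, h1, h2, h3⟩ := exists_sup_family B fun d : P => ((((rp d)⁻¹ : UA A) : Aˣ) : A)
  refine ⟨C, h1, h2, fun γ hγ => ⟨(rp ⟨_, γ, rfl, hγ⟩)⁻¹, mem_GA.2 ?_, fun w => h3 w _⟩⟩
  have h4 : (f ((rp ⟨_, γ, rfl, hγ⟩ : Aˣ) : A)).det = (f ((γ : Aˣ) : A)).det := hrp _
  generalize rp ⟨_, γ, rfl, hγ⟩ = r at h4 ⊢
  rw [Subgroup.coe_mul, Units.val_mul, map_mul, Matrix.det_mul, ← h4, ← Matrix.det_mul, ← map_mul,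
    ua_inv, ua_star_mul, map_one, Matrix.det_one]

theorem coc_su (hA : Anis k K A n) (hn : n ≠ 0) (f : A →ₐ[K] Matrix (Fin n) (Fin n) Ω)
    (B : Basis (Fin N) k A) (S : Finset (Place k)) (hS : S.Nonempty) :
    ∃ (M : Place k → ℝ) (R : ℝ), {w | M w ≠ 1}.Finite ∧ ∀ a : Place k → UA A, (∀ v, a v ∈ GA f) →
      ∃ γ ∈ GA f, (∀ w ∉ S, Bd B w (M w) ((γ : Aˣ) : A)) ∧
        ∀ v ∈ S, Bd B v R (((γ * a v : UA A) : Aˣ) : A) := by
  classical
  have hsim := hA.simple
  have hst := H519.star_smul_of_anis hA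
  have hfd : FiniteDimensional K A := Module.finite_of_finrank_pos (by
    rw [hA.finrank_eq]
    positivity)
  obtain ⟨Mw, hMfin, hMone, hcoc⟩ := H74.coc_SF (B := B) hst hA.anisotropic
  obtain ⟨R0, hR0⟩ := hcoc S hS
  obtain ⟨C, D, m, hC, hD, hCD⟩ := norm_bd (K := K) B
  obtain ⟨C2, h2, h2', h2''⟩ := exists_reps hA hn f B
    (fun w => C w * (D w * if w ∈ S then max R0 0 else Mw w) ^ m) (by
      refine (((hC.union hD).union hMfin).union S.finite_toSet).subset fun w hw => ?_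
      by_contra hcon
      simp only [Set.mem_union, Set.mem_ofPred_eq, not_or, not_not, Finset.mem_coe] at hcon
      exact hw (by simp only [hcon.1.1.1, hcon.1.1.2, hcon.1.2, hcon.2, if_false, mul_one,
        one_pow]))
  obtain ⟨C1, h1, h1', h1''⟩ := mul_bd B
  have hC2 : ∀ w, 0 ≤ C2 w := fun w => zero_le_one.trans (h2 w)
  have hC1 : ∀ w, 0 ≤ C1 w := fun w => zero_le_one.trans (h1 w)
  refine ⟨fun w => C1 w * C2 w * Mw w, ∑ v ∈ S, C1 v * C2 v * max R0 0,
    ((h1'.union h2').union hMfin).subset fun w hw => ?_, fun a ha => ?_⟩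
  · by_contra hcon
    simp only [Set.mem_union, Set.mem_ofPred_eq, not_or, not_not] at hcon
    exact hw (by simp only [hcon.1.1, hcon.1.2, hcon.2, mul_one])
  obtain ⟨lam, hl1, hl2, hl3, hl4⟩ := hR0 (fun v => star ((a v : Aˣ) : A))
    (fun v => by rw [star_star, ua_mul_star]) (fun v => by rw [star_star, ua_star_mul])
  obtain ⟨γ, rfl⟩ : ∃ γ : UA A, ((γ : Aˣ) : A) = lam := ⟨⟨⟨lam, star lam, hl2, hl1⟩, hl2⟩, rfl⟩
  have h5 : ∀ v ∈ S, Bd B v (max R0 0) (((γ : Aˣ) : A) * ((a v : Aˣ) : A)) := fun v hv i => by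
    have h6 := hl4 ⟨v, hv⟩ i
    rw [star_star] at h6
    exact h6.trans (le_max_left _ _)
  obtain ⟨r, hr1, hr2⟩ := h2'' γ fun w => by
    by_cases hw : w ∈ S
    · have h7 := hCD w _ _ (le_max_right _ _) (h5 w hw)
      have h8 : LinearMap.det (LinearMap.mulLeft K (((γ : Aˣ) : A) * ((a w : Aˣ) : A))) =
          LinearMap.det (LinearMap.mulLeft K ((γ : Aˣ) : A)) := by
        refine (algebraMap K Ω).injective ?_
        rw [norm_eq hA hn f, norm_eq hA hn f, map_mul, Matrix.det_mul, mem_GA.1 (ha w), mul_one]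
      rwa [if_pos hw, ← h8]
    · rw [if_neg hw]
      exact hCD w _ _ (zero_le_one.trans (hMone w)) (hl3 w hw)
  refine ⟨r * γ, hr1, fun w hw => ?_, fun v hv => ?_⟩
  · rw [Subgroup.coe_mul, Units.val_mul]
    exact h1'' w _ _ _ _ (hC2 w) (zero_le_one.trans (hMone w)) (hr2 w) (hl3 w hw)
  · rw [mul_assoc, Subgroup.coe_mul, Units.val_mul, Subgroup.coe_mul, Units.val_mul]
    refine (h1'' v _ _ _ _ (hC2 v) (le_max_right _ _) (hr2 v) (h5 v hv)).mono ?_
    exact Finset.single_le_sum (f := fun v => C1 v * C2 v * max R0 0)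
      (fun v _ => mul_nonneg (mul_nonneg (hC1 v) (hC2 v)) (le_max_right _ _)) hv

end Vale.Agent.P011Z.FF
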