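import Vale.Agent.P011Z.FF.Loc
import Vale.Agent.P011Z.FF.CocS
import Vale.Agent.P011.H698.SolvFF

/-!
Strong approximation for the normal subgroups of the special unitary group.
-/

open Module Matrix Topology Filter

namespace Vale.Agent.P011Z.FF

open Vale.Agent.P011 Vale.Agent.P011.H738 Vale.Agent.P011.H271 Vale.Agent.P011.H698
  Vale.Agent.P011.H961

variable {k K A Ω : Type} [Field k] [GFF k] [Field K] [StarRing K] [Ring A] [StarRing A]
  [Algebra k K] [Algebra k A] [Algebra K A] [IsScalarTower k K A] [StarModule K A] {n N : ℕ}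
  [Field Ω] [Algebra K Ω]

namespace SA

section tg

variable {L : Type} [NontriviallyNormedField L] {E : Subgroup (Matrix (Fin n) (Fin n) L)ˣ}

theorem list_liftS {R : ℝ} (l : List (Matrix (Fin n) (Fin n) L)ˣ)
    (hl : ∀ s ∈ l, s ∈ E ∧ (s : Matrix (Fin n) (Fin n) L).det = 1 ∧ Ub R s) :
    ∃ l' : List E, (∀ s ∈ l', s ∈ ubE E R ∩ tgE E) ∧
      ((l'.prod : E) : (Matrix (Fin n) (Fin n) L)ˣ) = l.prod := by
  induction l with
  | nil => exact ⟨[], by simp, rfl⟩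
  | cons a l ih =>
    obtain ⟨l', h1, h2⟩ := ih fun s hs => hl s (List.mem_cons_of_mem _ hs)
    have ha := hl a List.mem_cons_self
    refine ⟨⟨a, ha.1⟩ :: l', fun s hs => ?_, ?_⟩
    · rcases List.mem_cons.mp hs with rfl | hs
      · exact ⟨ha.2.2, ha.2.1⟩
      · exact h1 s hs
    · rw [List.prod_cons, List.prod_cons, Subgroup.coe_mul, h2]

theorem closure_tg {R : ℝ} {a : E} (ha : a ∈ Submonoid.closure (ubE E R ∩ tgE E)) :
    a ∈ tgE E := by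
  induction ha using Submonoid.closure_induction with
  | mem x hx => exact hx.2
  | one => exact Matrix.det_one
  | mul x y _ _ hx hy =>
    change ((x * y : E) : (Matrix (Fin n) (Fin n) L)ˣ).val.det = 1
    rw [Subgroup.coe_mul, Units.val_mul, Matrix.det_mul, hx, hy, mul_one]

theorem loc_of (hl : LocS E) (H : Subgroup E)
    (hHn : ∀ e ∈ tgE E, ∀ b ∈ H, e * b * e⁻¹ ∈ H) (hb : ∃ b ∈ H, b ∈ ncE E) : tgE E ⊆ H := by
  intro y hy
  obtain ⟨b, hb, hbn⟩ := hb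
  have h1 : ∀ e ∈ E, (e : Matrix (Fin n) (Fin n) L).det = 1 →
      ∀ b ∈ H.map E.subtype, e * b * e⁻¹ ∈ H.map E.subtype := by
    intro e he hd b' hb'
    obtain ⟨b, hb, hbb⟩ := Subgroup.mem_map.mp hb'
    refine Subgroup.mem_map.mpr ⟨(⟨e, he⟩ : E) * b * (⟨e, he⟩ : E)⁻¹, hHn _ hd _ hb, ?_⟩
    rw [map_mul, map_mul, map_inv, hbb, Subgroup.subtype_apply]
  obtain ⟨y', hy', hyy⟩ := Subgroup.mem_map.mp (hl (H.map E.subtype) (Subgroup.map_subtype_le H) h1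
    ⟨_, Subgroup.mem_map_of_mem E.subtype hb, hbn⟩ _ y.2 hy)
  have : y' = y := Subtype.ext hyy
  rwa [← this]

end tg

variable {f : A →ₐ[K] Matrix (Fin n) (Fin n) Ω} {B : Basis (Fin N) k A} {v : Place k} {L : Type}
  [NontriviallyNormedField L] {E : Subgroup (Matrix (Fin n) (Fin n) L)ˣ}
  {g : A →+* Matrix (Fin n) (Fin n) L} [ProperSpace L] [IsUltrametricDist L]

theorem coc (h : LM f B v E g) (hA : Anis k K A n) (hn : n ≠ 0) (hnc : ∃ u ∈ GA f, u ∈ nzU A)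
    (q : Place k) :
    ∃ (Mw : Place k → ℝ) (R : ℝ), {w | Mw w ≠ 1}.Finite ∧ ∀ a ∈ tgE E, ∃ γ ∈ GA f,
      (∀ w, w ≠ q → w ≠ v → Bd B w (Mw w) ((γ : Aˣ) : A)) ∧ h.iota γ * a ∈ ubE E R := by
  classical
  have hst := H519.star_smul_of_anis hA
  obtain ⟨Mw, R0, hMfin, hcoc⟩ := coc_su hA hn f B {q, v} ⟨q, Finset.mem_insert_self _ _⟩
  obtain ⟨R3, hR30, hR3⟩ := h.ub hst R0
  refine ⟨Mw, R3, hMfin, fun a ha => ?_⟩
  have hU : {e : E | Ub 1 ((e⁻¹ * a : E) : (Matrix (Fin n) (Fin n) L)ˣ)} ∈ 𝓝 a := by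
    have hc : Continuous fun e : E => e⁻¹ * a := by fun_prop
    refine ((isOpen_ubE one_pos).preimage hc).mem_nhds ?_
    change Ub 1 ((a⁻¹ * a : E) : (Matrix (Fin n) (Fin n) L)ˣ)
    rw [inv_mul_cancel]
    exact ub_one le_rfl
  obtain ⟨_, hu, u, huG, rfl⟩ := mem_closure_iff_nhds.mp (dense_su h hnc ha) _ hU
  obtain ⟨γ, hγ, h1, h2⟩ := hcoc (fun _ => u) fun _ => huG
  refine ⟨γ, hγ, fun w hwq hwv => h1 w (by simp [hwq, hwv]), ?_⟩
  have h6 := hR3 _ (h2 v (by simp))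
  have h7 : h.iota γ * a = h.iota (γ * u) * ((h.iota u)⁻¹ * a) := by
    rw [map_mul]
    group
  change Ub R3 ((h.iota γ * a : E) : (Matrix (Fin n) (Fin n) L)ˣ)
  rw [h7, Subgroup.coe_mul]
  have h8 := h6.mul hR30 zero_le_one hu
  rwa [mul_one] at h8

/-- Approximation at one place. -/
theorem approx (h : LM f B v E g) (hu : UnbdS E) (hl : LocS E) (hA : Anis k K A n)
    (hn : n ≠ 0) (hst : ∀ (c : k) (x : A), star (c • x) = c • star x) {q : Place k} (hvq : v ≠ q)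
    (hnc : ∀ (T : Finset (Place k)), Big B T → ∀ ε : ℝ, 0 < ε → ∃ u : UA A, u ∈ GA f ∧
      ((u : Aˣ) : A) ∈ Lv B {q} T ε ∧ ∃ x : A, ((u : Aˣ) : A) * x ≠ x * ((u : Aˣ) : A))
    {M : Subgroup (UA A)} (hMG : M ≤ GA f) [(M.subgroupOf (GA f)).Normal]
    (hM : (M : Set (UA A)) ∈ FLv f B {q}) (T : Finset (Place k)) (hqT : q ∉ T) (hvT : v ∉ T)
    (W : Place k → Set (GA f)) (hW : ∀ w, W w ∈ nrF B (GA f).subtype w) (x : GA f)
    (O : Set (GA f)) (hO : O ∈ nrF B (GA f).subtype v) :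
    ∃ ν ∈ M.subgroupOf (GA f), (levF B (GA f).subtype hst).Of T W Set.univ {q, v} ν ∧
      x * ν ∈ O := by
  classical
  obtain ⟨R, hR⟩ := hu
  have hnc' : ∃ u ∈ GA f, u ∈ nzU A := by
    obtain ⟨T0, -, hT0⟩ := exists_big B ∅
    obtain ⟨u, h1, -, h2⟩ := hnc T0 hT0 1 one_pos
    exact ⟨u, h1, h2⟩
  obtain ⟨Mw, R3, hMfin, hcoc⟩ := coc h hA hn hnc' q
  have hW0o : IsOpen (ubE E 1) := isOpen_ubE one_pos
  have hW01 : ubE E 1 ∈ 𝓝 (1 : E) := hW0o.mem_nhds (ub_one le_rfl)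
  have hL0 : IsCompact ((fun p : E × E => p.1⁻¹ * p.2 * p.1) '' (ubE E R ×ˢ ubE E 1)) :=
    ((h.compact R).prod (h.compact 1)).image (by fun_prop)
  refine (levF B (GA f).subtype hst).approx q v (h.iota.comp (GA f).subtype) ?_
    (M.subgroupOf (GA f)) {y | (y : UA A) ∈ nzU A} ?_ (ubE E R ∩ tgE E)
    (ubE E 1) _ hW01 hL0 (fun s hs w hw => ⟨(s, w), ⟨hs.1, hw⟩, rfl⟩) ?_
    (ubE E R3) (h.compact R3)
    {γ | ∀ w, w ≠ q → w ≠ v → Bd B w (Mw w) (((γ : UA A) : Aˣ) : A)} ?_ hMfin.toFinset ?_ ?_ ?_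
    (ncE E) (fun y hy hy' c _ => app_nc E R y hy hy' c) (tgE E) ?_ T hqT hvT W hW Set.univ
    univ_mem x ?_ O hO
  · rintro U ⟨ε, hε, hU⟩
    obtain ⟨O', hO', h'⟩ := h.app_nhds _ (ball_mem B _ v hε)
    exact ⟨O', hO', fun y hy => hU y (h' hy)⟩
  · intro T hq _ W hW Woo hWoo O hO
    choose eW heW hW' using hW
    obtain ⟨y, hyM, hy, hyO, h1, -, h3⟩ := h.app_inf hst hvq hnc hM T hq
      (fun w => {u | Sm B w (eW w) (el (MonoidHom.id (UA A)) u - 1)})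
      (fun w => ball_mem B _ w (heW w)) O hO
    have hoo : Woo = Set.univ := mem_top.mp hWoo
    refine ⟨⟨y, hMG hyM⟩, hyM, hy, hyO, fun w hw => hW' w _ (h1 w hw), by rw [hoo]; trivial,
      fun w hw hw' => ?_⟩
    rw [levF_Kint, kintF_iff]
    exact h3 w hw hw'
  · intro y _ hy
    obtain ⟨l, hl, hb⟩ := hR (h.iota y) (h.iota y).2 (h.ncE_of hy) 1
    obtain ⟨l', h1, h2⟩ := list_liftS l hl
    refine ⟨l', h1, fun h3 => hb ?_⟩
    have h4 := h3.1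
    rwa [Subgroup.coe_mul, Subgroup.coe_mul, Subgroup.coe_inv, h2] at h4
  · intro a ha
    obtain ⟨γ, hγ, h1, h2⟩ := hcoc a (closure_tg ha)
    exact ⟨⟨γ, hγ⟩, h1, h2⟩
  · intro γ hγ w hw hwq hwv
    have hMw : Mw w = 1 := by
      by_contra hcon
      exact hw (hMfin.mem_toFinset.mpr hcon)
    rw [levF_Kint]
    refine mem_kintF_of B _ ?_
    have := hγ w hwq hwv
    rwa [hMw] at this
  · rintro w hwq hwv U ⟨ε, hε, hU⟩
    obtain ⟨ε', hε', hc⟩ := conj_near B hst w (R := Mw w) hε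
    refine ⟨_, ball_mem B _ w hε', fun γ hγ y hy => hU _ ?_⟩
    rw [el_mul, el_mul, el_inv]
    exact hc _ _ (el_mul_star _ γ) (hγ w hwq hwv) hy
  · intro U hU
    have hU' : U = Set.univ := mem_top.mp hU
    exact ⟨U, hU, fun _ _ _ _ => by rw [hU']; trivial⟩
  · intro H _ hHn hb
    refine loc_of hl H (fun e he => hHn e (closure_mono ?_ (dense_su h hnc' he))) hb
    rintro _ ⟨u, hu, rfl⟩
    exact ⟨⟨u, hu⟩, rfl⟩
  · change (((h.iota x)⁻¹ : E) : (Matrix (Fin n) (Fin n) L)ˣ).val.det = 1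
    rw [← map_inv, h.iota_val]
    exact h.det _ (mem_GA.mp ((GA f).inv_mem x.2))

end SA

theorem sa_su (hk : IsGlobalFunctionField k) (hA : Anis k K A n) (hn : 3 ≤ n) {q : Place k}
    {φ : K →ₐ[k] q.comp} {g : A →+* Matrix (Fin n) (Fin n) q.comp}
    (hφ : ∀ c : K, g (algebraMap K A c) = algebraMap q.comp _ (φ c))
    (hspan : Submodule.span q.comp (Set.range fun x : A => (g x, (g (star x)).transpose)) = ⊤)
    (f : A →ₐ[K] Matrix (Fin n) (Fin n) Ω) (B : Basis (Fin N) k A) {M : Subgroup (UA A)}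
    (hMG : M ≤ GA f) (hM : ∀ γ ∈ GA f, ∀ x ∈ M, γ * x * γ⁻¹ ∈ M)
    (hL : (M : Set (UA A)) ∈ FLv f B {q}) : (M : Set (UA A)) ∈ FNr f B := by
  classical
  have hst := H519.star_smul_of_anis hA
  have : (M.subgroupOf (GA f)).Normal := ⟨fun x hx γ => hM γ γ.2 x hx⟩
  obtain ⟨Tm, hTm⟩ := exists_modelsS hk hA hn f B
  obtain ⟨T0, hT0, ε0, hε0, hε01, hM0⟩ := mem_FLv.mp hL
  have hnc : ∀ (T : Finset (Place k)), Big B T → ∀ ε : ℝ, 0 < ε → ∃ u : UA A, u ∈ GA f ∧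
      ((u : Aˣ) : A) ∈ Lv B {q} T ε ∧ ∃ x : A, ((u : Aˣ) : A) * x ≠ x * ((u : Aˣ) : A) :=
    fun T hT ε hε => exists_noncentral hA (by omega) hφ hspan f B hT hε
  obtain ⟨T1, hT1d⟩ : ∃ T1, T1 = (Tm ∪ T0).erase q := ⟨_, rfl⟩
  have hqT1 : q ∉ T1 := by
    rw [hT1d]
    exact Finset.notMem_erase _ _
  have hmT1 : ∀ v, v ≠ q → v ∉ T1 → v ∉ Tm ∧ v ∉ T0 := by
    intro v hvq hv
    rw [hT1d, Finset.mem_erase, not_and, Finset.mem_union, not_or] at hv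
    exact hv hvq
  have hT0T1 : ∀ v ∈ T0, v ≠ q → v ∈ T1 := by
    intro v hv hvq
    rw [hT1d]
    exact Finset.mem_erase.mpr ⟨hvq, Finset.mem_union_right _ hv⟩
  let Lf := levF B (GA f).subtype hst
  have hball : ∀ w, {x : GA f | Sm B w ε0 (el (GA f).subtype x - 1)} ∈ Lf.Nr w := fun w =>
    ball_mem B _ w hε0
  choose W hW hmul using fun w => Lf.mul_nr w _ (hball w)
  have hW' : ∀ w, ∃ e : ℝ, 0 < e ∧ ∀ x, Sm B w e (el (GA f).subtype x - 1) → x ∈ W w := hW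
  choose e he heW using hW'
  obtain ⟨m, hm, hmT⟩ : ∃ m : ℝ, 0 < m ∧ ∀ w ∈ T1, m ≤ e w := by
    clear hqT1 hmT1 hT0T1 hT1d
    induction T1 using Finset.induction_on with
    | empty => exact ⟨1, one_pos, by simp⟩
    | insert a s _ ih =>
      obtain ⟨m, hm, hm'⟩ := ih
      refine ⟨min (e a) m, lt_min (he a) hm, fun i hi => ?_⟩
      rcases Finset.mem_insert.mp hi with rfl | hi
      · exact min_le_left _ _
      · exact (min_le_right _ _).trans (hm' i hi)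
  refine mem_FNr.mpr ⟨T1, m, hm, fun u hu hnear => ?_⟩
  let x : GA f := ⟨u, hu⟩
  obtain ⟨μ, hμc, hμ1, -, hμ3⟩ := Lf.exists_fix (QuotientGroup.mk' (M.subgroupOf (GA f))) q T1
    (by
      intro v hv hvq y W1 hW1 Woo hWoo
      obtain ⟨L, _, _, _, E, g', h, h₁, h₂⟩ := hTm v (hmT1 v hvq hv).1
      obtain ⟨ν, hνM, h1, h2⟩ := SA.approx h h₁ h₂ hA (by omega) hst hvq hnc hMG hL T1 hqT1 hv
        W1 hW1 y (kintF B (GA f).subtype hst v : Subgroup (GA f)) (Lf.int_nr v)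
      have hWoo' : Woo = Set.univ := mem_top.mp hWoo
      rw [hWoo']
      exact ⟨ν, (QuotientGroup.eq_one_iff ν).mpr hνM, h1, h2⟩)
    _ x le_rfl W hW Set.univ univ_mem
  rw [QuotientGroup.mk'_apply, QuotientGroup.eq_one_iff, Subgroup.mem_subgroupOf] at hμc
  have hprod : ∀ w ∈ T1, Sm B w ε0 (el (GA f).subtype (x * μ) - 1) := fun w hw =>
    hmul w x (heW w x ((hnear w hw).mono (hmT w hw))) μ (hμ1 w hw)
  have hlv : el (GA f).subtype (x * μ) ∈ Lv B {q} T0 ε0 := by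
    refine ⟨fun w hw hwq => hprod w (hT0T1 w hw hwq), fun w hw hwq => ?_⟩
    have hgd := hT0 w hw
    by_cases hw1 : w ∈ T1
    · exact hgd.of_near ((hprod w hw1).mono hε01).bd
    · exact (mem_kintF B (GA f).subtype (hst := hst) hgd).mp (hμ3 w hw1 hwq)
  have h6 : u * (μ : UA A) ∈ M := hM0 _ (x * μ).2 hlv
  exact (M.mul_mem_cancel_right hμc).mp h6

end Vale.Agent.P011Z.FF
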