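import Vale.Agent.P011Z.FF.LocF
import Vale.Agent.P011Z.FF.RemAbs
import Vale.Agent.P011Z.FF.SA
import Vale.Agent.P011Z.FF.Lat
import Vale.Agent.P011Z.OutDefs

/-!
The noncentral normal subgroups of the special unitary groups over global function fields have
finite index.
-/

open Module Matrix Topology

namespace Vale.Agent.P011Z.FF

open Vale.Agent.P011 Vale.Agent.P011.H738 Vale.Agent.P011.H271 Vale.Agent.P011.H698
  Vale.Agent.P011.H961 Vale.Agent.P011.H74

variable {k K A Ω : Type} [Field k] [Field K] [StarRing K] [Ring A] [StarRing A]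
  [Algebra k K] [Algebra k A] [Algebra K A] [IsScalarTower k K A] [StarModule K A] {n N : ℕ}
  [Field Ω] [Algebra K Ω]

namespace FinA

open commutatorElement

variable [StarLinR k A] (B : Basis (Fin N) k A)

theorem coord (v : Place k) (x y : UA A) (i : Fin N) :
    ‖(bcrT B v.comp).φ (((jUA (bcrT B v.comp) x : (BR B v.comp)ˣ) : BR B v.comp) -
      ((jUA (bcrT B v.comp) y : (BR B v.comp)ˣ) : BR B v.comp)) i‖ =
      v.abv (B.repr (((x : Aˣ) : A) - ((y : Aˣ) : A)) i) := by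
  rw [jUA_coe, jUA_coe, ← map_sub, (bcrT B v.comp).φ_eq, norm_alg]
  rfl

theorem box {T : Finset (Place k)} {p : ∀ v : T, UA (BR B v.1.comp)}
    {O : Set (∀ v : T, UA (BR B v.1.comp))} (hO : O ∈ 𝓝 p) : ∃ η : ℝ, 0 < η ∧
      ∀ y : ∀ v : T, UA (BR B v.1.comp), (∀ (v : T) i, ‖(bcrT B v.1.comp).φ
        (((y v : (BR B v.1.comp)ˣ) : BR B v.1.comp) -
          ((p v : (BR B v.1.comp)ˣ) : BR B v.1.comp)) i‖ < η) → y ∈ O := by
  rw [nhds_pi, Filter.mem_pi] at hO
  obtain ⟨I, -, W, hW, hIW⟩ := hO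
  choose δ hδ hδW using fun v : T => nhds_UA (bcrT B v.1.comp) (p v) (hW v)
  obtain ⟨η, hη, hηδ⟩ := exists_pos_le δ hδ
  exact ⟨η, hη, fun y hy => hIW fun v _ => hδW v _ fun i => (hy v i).trans_le (hηδ v)⟩

theorem dense [Infinite k] (hA : Anis k K A n) (T : Finset (Place k)) :
    DenseRange fun (g : UA A) (v : T) => jUA (bcrT B v.1.comp) g := by
  intro p
  rw [mem_closure_iff_nhds]
  intro O hO
  obtain ⟨η, hη, h⟩ := box B hO
  obtain ⟨g, hg⟩ := weak_unitary hA B T (fun v => ((p v : (BR B v.1.comp)ˣ) : BR B v.1.comp))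
    (fun v => ua_mul_star (p v)) (fun v => ua_star_mul (p v)) hη
  exact ⟨fun v => jUA (bcrT B v.1.comp) g, h (fun v => jUA (bcrT B v.1.comp) g) hg, g, rfl⟩

theorem comm_iff (v : Place k) (u : UA A) (x : A) :
    ((jUA (bcrT B v.comp) u : (BR B v.comp)ˣ) : BR B v.comp) * (bcrT B v.comp).j x =
      (bcrT B v.comp).j x * ((jUA (bcrT B v.comp) u : (BR B v.comp)ˣ) : BR B v.comp) ↔
    ((u : Aˣ) : A) * x = x * ((u : Aˣ) : A) := by
  rw [jUA_coe, ← map_mul, ← map_mul, (bcrT B v.comp).j_inj.eq_iff]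

theorem open_comm (q : Place k) {a₀ u : UA A} {x : A}
    (hx : (((⁅a₀, u⁆ : UA A) : Aˣ) : A) * x ≠ x * (((⁅a₀, u⁆ : UA A) : Aˣ) : A)) :
    ∃ δ : ℝ, 0 < δ ∧ ∀ a : UA A, Sm B q δ (((a : Aˣ) : A) - ((a₀ : Aˣ) : A)) →
      (((⁅a, u⁆ : UA A) : Aˣ) : A) * x ≠ x * (((⁅a, u⁆ : UA A) : Aˣ) : A) := by
  have : T2Space (BR B q.comp) := (bcrT B q.comp).φ.toHomeomorph.isEmbedding.t2Space
  have hc : Continuous fun y : UA (BR B q.comp) =>
      (((⁅y, jUA (bcrT B q.comp) u⁆ : UA (BR B q.comp)) : (BR B q.comp)ˣ) : BR B q.comp) := by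
    simp only [commutatorElement_def]
    exact Units.continuous_val.comp (continuous_subtype_val.comp
      (((continuous_id.mul continuous_const).mul continuous_inv).mul continuous_const))
  have ho := isOpen_ne_fun (hc.mul (continuous_const (y := (bcrT B q.comp).j x)))
    ((continuous_const (y := (bcrT B q.comp).j x)).mul hc)
  have h1 : ∀ a : UA A, jUA (bcrT B q.comp) ⁅a, u⁆ =
      ⁅jUA (bcrT B q.comp) a, jUA (bcrT B q.comp) u⁆ := fun a => map_commutatorElement _ _ _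
  obtain ⟨δ, hδ, h⟩ := nhds_UA (bcrT B q.comp) (jUA (bcrT B q.comp) a₀)
    (ho.mem_nhds fun h => hx ((comm_iff B q _ x).1 (h1 a₀ ▸ h)))
  refine ⟨δ, hδ, fun a ha h2 => h (jUA (bcrT B q.comp) a)
    (fun i => (coord B q a a₀ i).trans_lt (ha i)) ?_⟩
  have h3 := (comm_iff B q _ x).2 h2
  rw [h1 a] at h3
  exact h3

theorem exists_comm (hk : IsGlobalFunctionField k) (hA : Anis k K A n) (hn : 3 ≤ n)
    (f : A →ₐ[K] Matrix (Fin n) (Fin n) Ω) (T : Finset (Place k)) {η : ℝ} (hη : 0 < η) :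
    ∃ a : UA A, ∃ u ∈ GA f, (∀ v ∈ T, Sm B v η (((a : Aˣ) : A) - 1)) ∧
      (∀ v ∈ T, Sm B v η (((u : Aˣ) : A) - 1)) ∧ ⁅a, u⁆ ∈ nzU A := by
  classical
  have hgff := gff_of_isGlobal hk
  obtain ⟨T', hTT', hT'⟩ := exists_big B T
  obtain ⟨q, hq, -, φ, g, hφ, -, hspan⟩ := H519.exists_split_place hk hA (by omega) T 0
  have hinf : Infinite k := infinite_of_place q
  obtain ⟨u, hu, hu', hun⟩ := exists_noncentral hA (by omega) hφ hspan f B hT' hη
  obtain ⟨a₀, x, hx⟩ := exists_comm_noncentral hA hn hφ hspan hun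
  obtain ⟨δ, hδ, h⟩ := open_comm B q hx
  obtain ⟨a, ha⟩ := weak_unitary' hA B (insert q T) (fun v => if v = q then a₀ else 1)
    (lt_min hδ hη)
  refine ⟨a, u, hu, fun v hv => ?_, fun v hv => hu'.1 v (hTT' hv) fun e : v = q => hq (e ▸ hv),
    x, h a ?_⟩
  · have h1 := ha v (Finset.mem_insert_of_mem hv)
    rw [if_neg fun e : v = q => hq (e ▸ hv)] at h1
    exact h1.mono (min_le_right _ _)
  · have h1 := ha q (Finset.mem_insert_self _ _)
    rw [if_pos rfl] at h1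
    exact h1.mono (min_le_left _ _)

end FinA

open FinA in
/-- A normal subgroup which is open at finitely many places has finite index. -/
theorem fin_of_near (hk : IsGlobalFunctionField k) (hA : Anis k K A n) (hn : 3 ≤ n)
    (f : A →ₐ[K] Matrix (Fin n) (Fin n) Ω) (B : Basis (Fin N) k A) {S : Subgroup (UA A)}
    (hSG : S ≤ GA f) (hS : ∀ γ ∈ GA f, ∀ x ∈ S, γ * x * γ⁻¹ ∈ S)
    (hL : (S : Set (UA A)) ∈ FNr f B) : S.relIndex (GA f) ≠ 0 := by
  have hgff := gff_of_isGlobal hk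
  have hSL : StarLinR k A := ⟨H519.star_smul_of_anis hA⟩
  obtain ⟨T, ε, hε, hT⟩ := mem_FNr.mp hL
  obtain ⟨q, -⟩ := H519.exists_split_place hk hA (by omega) T 0
  have hinf : Infinite k := infinite_of_place q
  have hO := set_pi_mem_nhds (x := fun v : T => jUA (bcrT B v.1.comp) 1)
    (Set.toFinite (Set.univ : Set T)) fun v _ =>
      box_mem (bcrT B v.1.comp) (jUA (bcrT B v.1.comp) 1) hε
  have h1 : (fun v : T => jUA (bcrT B v.1.comp) (1 : UA A)) = 1 := funext fun v => map_one _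
  choose E hE C hC using fun v : T => locF hk hA hn f B v.1
  refine rem_fin (fun v : T => jUA (bcrT B v.1.comp)) (dense B hA T) (GA f) S hSG hS
    ((congrArg nhds h1).ge hO) (fun g hg hgO => hT g hg fun v hv i => ?_)
    (fun v => nzU (BR B v.1.comp)) (fun O hO => ?_) E hE fun v => ⟨C v, hC v⟩
  · exact (coord B v g 1 i).symm.trans_lt (hgO ⟨v, hv⟩ (Set.mem_univ _) i)
  rw [← h1] at hO
  obtain ⟨η, hη, h2⟩ := box B hO
  obtain ⟨a, u, hu, h3, h4, x, hx⟩ := exists_comm B hk hA hn f T hη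
  exact ⟨a, u, hu, h2 _ fun v i => (coord B v.1 a 1 i).trans_lt (h3 v.1 v.2 i),
    h2 _ fun v i => (coord B v.1 u 1 i).trans_lt (h4 v.1 v.2 i),
    fun v => ⟨(bcrT B v.1.comp).j x, fun h => hx ((comm_iff B v.1 _ x).1 h)⟩⟩

theorem finiteIndex_ff (hk : IsGlobalFunctionField k) (h : Out k K A n)
    (f : A →ₐ[K] Matrix (Fin n) (Fin n) Ω) (M : Subgroup (H925.Full.GK f)) [M.Normal]
    (hM : ¬ M ≤ Subgroup.center (H925.Full.GK f)) : M.FiniteIndex := by
  have hgff := gff_of_isGlobal hk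
  have hA : Anis k K A n := ⟨h.fixed, h.star_ne, h.central, h.simple, h.rank, h.aniso⟩
  have hn := h.le
  have : FiniteDimensional k A :=
    FiniteDimensional.of_finrank_pos (by rw [H519.finrank_of_anis hA]; positivity)
  obtain ⟨q, -, hq, φ, g, hφ, -, hspan⟩ := H519.exists_split_place hk hA (by omega) ∅ 5
  let e : H925.Full.GK f →* UA A :=
    { toFun := fun x => ⟨⟨x.1.1, star x.1.1, x.1.2.2, x.1.2.1⟩, x.1.2.2⟩
      map_one' := Subtype.ext (Units.ext rfl)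
      map_mul' := fun _ _ => Subtype.ext (Units.ext rfl) }
  have he : Function.Injective e := fun x y hxy =>
    Subtype.ext (Subtype.ext (congrArg (fun u : UA A => ((u : Aˣ) : A)) hxy))
  have hr : (⊤ : Subgroup (H925.Full.GK f)).map e = GA f := by
    refine le_antisymm ?_ fun u hu => ⟨⟨⟨_, ua_star_mul u, ua_mul_star u⟩, mem_GA.1 hu⟩, trivial,
      Subtype.ext (Units.ext rfl)⟩
    rintro _ ⟨x, -, rfl⟩
    exact mem_GA.2 x.2
  obtain ⟨S, h1, h2, h3, h4⟩ := sat_ff hA hn hq hφ hspan f (Module.finBasis k A) (M := M.map e)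
    (hr ▸ Subgroup.map_mono le_top) (by
      rw [← hr]
      rintro _ ⟨γ, -, rfl⟩ _ ⟨x, hx, rfl⟩
      exact ⟨_, Subgroup.Normal.conj_mem inferInstance x hx γ, by simp⟩) (by
      obtain ⟨x, hx, h5⟩ := SetLike.not_le_iff_exists.1 hM
      obtain ⟨y, hy⟩ := not_forall.1 (mt Subgroup.mem_center_iff.2 h5)
      exact ⟨e x, ⟨x, hx, rfl⟩, y.1.1, fun h6 => hy (Subtype.ext (Subtype.ext h6.symm))⟩)
  have h5 := Subgroup.relIndex_ne_zero_trans h4
    (fin_of_near hk hA hn f _ h1 h2 (sa_su hk hA hn hφ hspan f _ h1 h2 h3))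
  rw [← hr, Subgroup.relIndex_map_map_of_injective _ _ he, Subgroup.relIndex_top_right] at h5
  exact ⟨h5⟩

end Vale.Agent.P011Z.FF
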