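import Vale.Agent.P011.H961.SA

/-!
The local properties for the groups of the elements of determinant one.
-/

open Module Matrix Topology

namespace Vale.Agent.P011Z.FF

open Vale.Agent.P011 Vale.Agent.P011.H738 Vale.Agent.P011.H271 Vale.Agent.P011.H698
  Vale.Agent.P011.H961

section defs

variable {n : ℕ} {L : Type} [NormedField L]

/-- The conjugates of a nonscalar element of `E` by words in a bounded part of the elements of
determinant one of `E` are unbounded. -/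
def UnbdS (E : Subgroup (Matrix (Fin n) (Fin n) L)ˣ) : Prop :=
  ∃ R : ℝ, ∀ x ∈ E, (∀ c : L, (x : Matrix (Fin n) (Fin n) L) ≠ c • (1 : Matrix (Fin n) (Fin n) L)) →
    ∀ R1 : ℝ, ∃ l : List (Matrix (Fin n) (Fin n) L)ˣ,
      (∀ s ∈ l, s ∈ E ∧ (s : Matrix (Fin n) (Fin n) L).det = 1 ∧ Ub R s) ∧
      ¬ Eb R1 ((l.prod⁻¹ * x * l.prod : (Matrix (Fin n) (Fin n) L)ˣ) : Matrix (Fin n) (Fin n) L)

/-- A subgroup of `E` which is normalised by the elements of determinant one of `E` and contains a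
nonscalar element contains the elements of determinant one of `E`. -/
def LocS (E : Subgroup (Matrix (Fin n) (Fin n) L)ˣ) : Prop :=
  ∀ H : Subgroup (Matrix (Fin n) (Fin n) L)ˣ, H ≤ E →
    (∀ e ∈ E, (e : Matrix (Fin n) (Fin n) L).det = 1 → ∀ h ∈ H, e * h * e⁻¹ ∈ H) →
    (∃ h ∈ H, ∀ c : L, (h : Matrix (Fin n) (Fin n) L) ≠ c • (1 : Matrix (Fin n) (Fin n) L)) →
    ∀ g ∈ E, (g : Matrix (Fin n) (Fin n) L).det = 1 → g ∈ H

end defs

section loc

variable {n : ℕ} {L : Type} [NontriviallyNormedField L]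

open Vale.Agent.P011.H487.Lin in
/-- The torus element with `t` at `j` and the inverse of `t` at `i`. -/
def torLc (i j : Fin n) (t : Lˣ) : (Matrix (Fin n) (Fin n) L)ˣ :=
  dg (Pi.mulSingle j t * Pi.mulSingle i t⁻¹)

open Vale.Agent.P011.H487.Lin in
theorem torLc_det (i j : Fin n) (t : Lˣ) : (torLc i j t : Matrix (Fin n) (Fin n) L).det = 1 := by
  rw [torLc, dg_val, det_diagonal, ← Units.coe_prod]
  simp only [Pi.mul_apply, Finset.prod_mul_distrib, Fintype.prod_pi_mulSingle', mul_inv_cancel,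
    Units.val_one]

open Vale.Agent.P011.H487.Lin in
theorem ubLc_dg {R : ℝ} (hR : 0 ≤ R) {u : Fin n → Lˣ}
    (h : ∀ a, ‖(u a : L)‖ ≤ R ∧ ‖(((u a)⁻¹ : Lˣ) : L)‖ ≤ R) :
    Ub R (dg u : (Matrix (Fin n) (Fin n) L)ˣ) := by
  constructor
  · intro a b
    rw [dg_val]
    by_cases hab : a = b
    · subst hab
      rw [diagonal_apply_eq]
      exact (h a).1
    · rwa [diagonal_apply_ne _ hab, norm_zero]
  · intro a b
    rw [← map_inv, dg_val]
    by_cases hab : a = b
    · subst hab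
      rw [diagonal_apply_eq, Pi.inv_apply]
      exact (h a).2
    · rwa [diagonal_apply_ne _ hab, norm_zero]

theorem torLc_ub {i j : Fin n} (hij : i ≠ j) {t : Lˣ} (ht : 1 < ‖(t : L)‖) :
    Ub ‖(t : L)‖ (torLc i j t) := by
  have hti : ‖((t⁻¹ : Lˣ) : L)‖ ≤ ‖(t : L)‖ := by
    rw [Units.val_inv_eq_inv_val, norm_inv]
    exact (inv_le_one_of_one_le₀ ht.le).trans ht.le
  refine ubLc_dg (norm_nonneg _) fun a => ?_
  rw [Pi.mul_apply]
  by_cases haj : a = j
  · subst haj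
    rw [Pi.mulSingle_eq_same, Pi.mulSingle_eq_of_ne hij.symm, mul_one]
    exact ⟨le_rfl, hti⟩
  · rw [Pi.mulSingle_eq_of_ne haj, one_mul]
    by_cases hai : a = i
    · subst hai
      rw [Pi.mulSingle_eq_same, inv_inv]
      exact ⟨hti, le_rfl⟩
    · rw [Pi.mulSingle_eq_of_ne hai, inv_one, Units.val_one, norm_one]
      exact ⟨ht.le, ht.le⟩

open Vale.Agent.P011.H487.Lin in
theorem exists_largeS {i j : Fin n} {t : Lˣ} (ht : 1 < ‖(t : L)‖)
    (y : (Matrix (Fin n) (Fin n) L)ˣ) (hij : i ≠ j)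
    (hy : (y : Matrix (Fin n) (Fin n) L) i j ≠ 0) (R1 : ℝ) :
    ∃ m : ℕ, ¬ Eb R1 ((((torLc i j t) ^ m)⁻¹ * y * (torLc i j t) ^ m :
      (Matrix (Fin n) (Fin n) L)ˣ) : Matrix (Fin n) (Fin n) L) := by
  obtain ⟨m, hm⟩ := pow_unbounded_of_one_lt
    (R1 / ‖(y : Matrix (Fin n) (Fin n) L) i j‖) ht
  refine ⟨m, fun hE => ?_⟩
  have h1 := hE i j
  have h2 : ((((torLc i j t) ^ m)⁻¹ * y * (torLc i j t) ^ m :
      (Matrix (Fin n) (Fin n) L)ˣ) : Matrix (Fin n) (Fin n) L) i j =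
      (t : L) ^ m * (y : Matrix (Fin n) (Fin n) L) i j * (t : L) ^ m := by
    rw [torLc, ← map_pow, ← map_inv, Units.val_mul, Units.val_mul, dg_val, dg_val, mul_diagonal,
      diagonal_mul]
    rw [Pi.inv_apply, Pi.pow_apply, Pi.pow_apply, Pi.mul_apply, Pi.mul_apply, Pi.mulSingle_eq_same,
      Pi.mulSingle_eq_same, Pi.mulSingle_eq_of_ne hij, Pi.mulSingle_eq_of_ne hij.symm, one_mul,
      mul_one, inv_pow, inv_inv, Units.val_pow_eq_pow_val]
  rw [h2, norm_mul, norm_mul, norm_pow] at h1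
  have h3 : 0 < ‖(y : Matrix (Fin n) (Fin n) L) i j‖ := norm_pos_iff.2 hy
  rw [div_lt_iff₀ h3] at hm
  have h4 : 1 ≤ ‖(t : L)‖ ^ m := one_le_pow₀ ht.le
  have h5 := le_mul_of_one_le_right (mul_nonneg (zero_le_one.trans h4) h3.le) h4
  linarith

open Vale.Agent.P011.H487.Lin in
theorem unbdS_gl (hn : 2 ≤ n) : UnbdS (⊤ : Subgroup (Matrix (Fin n) (Fin n) L)ˣ) := by
  obtain ⟨t0, ht0⟩ := NormedField.exists_one_lt_norm L
  have ht00 : t0 ≠ 0 := by
    rintro rfl
    rw [norm_zero] at ht0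
    linarith
  obtain ⟨t, rfl⟩ : ∃ t : Lˣ, (t : L) = t0 := ⟨Units.mk0 t0 ht00, rfl⟩
  refine ⟨‖(t : L)‖, fun x _ hx R1 => ?_⟩
  by_cases hoff : ∃ i j : Fin n, i ≠ j ∧ (x : Matrix (Fin n) (Fin n) L) i j ≠ 0
  · obtain ⟨i, j, hij, hxij⟩ := hoff
    obtain ⟨m, hm⟩ := exists_largeS ht0 x hij hxij R1
    refine ⟨List.replicate m (torLc i j t), ?_, ?_⟩
    · intro s hs
      rw [List.eq_of_mem_replicate hs]
      exact ⟨Subgroup.mem_top _, torLc_det i j t, torLc_ub hij ht0⟩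
    · rwa [List.prod_replicate]
  · push Not at hoff
    obtain ⟨i, j, hij⟩ : ∃ i j : Fin n, (x : Matrix (Fin n) (Fin n) L) i i ≠
        (x : Matrix (Fin n) (Fin n) L) j j := by
      by_contra hne
      push Not at hne
      apply hx ((x : Matrix (Fin n) (Fin n) L) ⟨0, by omega⟩ ⟨0, by omega⟩)
      ext a b
      rw [Matrix.smul_apply, smul_eq_mul]
      by_cases hab : a = b
      · subst hab; rw [one_apply_eq, mul_one]; exact hne _ _
      · rw [one_apply_ne hab, mul_zero]; exact hoff a b hab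
    have hij' : i ≠ j := by
      rintro rfl; exact hij rfl
    have hx0 : (Pi.single j 1 : Fin n → L) ⬝ᵥ Pi.single i 1 = 0 := by
      rw [dotProduct_single, Pi.single_eq_of_ne hij', zero_mul]
    obtain ⟨g, hg⟩ : ∃ g, g = tvm _ _ hx0 := ⟨_, rfl⟩
    have hgv : (g : Matrix (Fin n) (Fin n) L) =
        1 + vecMulVec (Pi.single i 1) (Pi.single j 1) := by rw [hg, tvm_val]
    have hgi : ((g⁻¹ : (Matrix (Fin n) (Fin n) L)ˣ) : Matrix (Fin n) (Fin n) L) =
        1 - vecMulVec (Pi.single i 1) (Pi.single j 1) := by rw [hg, tvm_inv_val]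
    have hgd : (g : Matrix (Fin n) (Fin n) L).det = 1 := by
      rw [hgv, vecMulVec_eq Unit, det_one_add_replicateCol_mul_replicateRow, hx0, add_zero]
    have hvv : ∀ a b : Fin n, (vecMulVec (Pi.single i (1 : L)) (Pi.single j 1) :
        Matrix (Fin n) (Fin n) L) a b = if a = i ∧ b = j then 1 else 0 := by
      intro a b
      rw [vecMulVec_apply]
      by_cases ha : a = i
      · by_cases hb : b = j
        · subst ha hb; rw [Pi.single_eq_same, Pi.single_eq_same, mul_one, if_pos ⟨rfl, rfl⟩]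
        · rw [Pi.single_eq_of_ne hb, mul_zero, if_neg (fun h => hb h.2)]
      · rw [Pi.single_eq_of_ne ha, zero_mul, if_neg (fun h => ha h.1)]
    have h1a : ∀ a b : Fin n, ‖(1 : Matrix (Fin n) (Fin n) L) a b‖ ≤ 1 ∧
        (a = i ∧ b = j → (1 : Matrix (Fin n) (Fin n) L) a b = 0) := by
      intro a b
      constructor
      · by_cases hab : a = b
        · rw [hab, one_apply_eq, norm_one]
        · rw [one_apply_ne hab, norm_zero]; exact zero_le_one
      · rintro ⟨rfl, rfl⟩; rw [one_apply_ne hij']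
    have hgb : Ub ‖(t : L)‖ g := by
      constructor
      · intro a b
        rw [hgv, Matrix.add_apply, hvv]
        by_cases hab : a = i ∧ b = j
        · rw [if_pos hab, (h1a a b).2 hab, zero_add, norm_one]; exact ht0.le
        · rw [if_neg hab, add_zero]; exact (h1a a b).1.trans ht0.le
      · intro a b
        rw [hgi, Matrix.sub_apply, hvv]
        by_cases hab : a = i ∧ b = j
        · rw [if_pos hab, (h1a a b).2 hab, zero_sub, norm_neg, norm_one]; exact ht0.le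
        · rw [if_neg hab, sub_zero]; exact (h1a a b).1.trans ht0.le
    have hent : ((g⁻¹ * x * g : (Matrix (Fin n) (Fin n) L)ˣ) : Matrix (Fin n) (Fin n) L) i j ≠ 0 := by
      have e1 : ((g⁻¹ * x * g : (Matrix (Fin n) (Fin n) L)ˣ) : Matrix (Fin n) (Fin n) L) i j =
          (x : Matrix (Fin n) (Fin n) L) i i - (x : Matrix (Fin n) (Fin n) L) j j := by
        rw [Units.val_mul, Units.val_mul, hgv, hgi, Matrix.sub_mul, Matrix.one_mul, Matrix.mul_add,
          Matrix.mul_one, Matrix.add_apply, Matrix.sub_apply, mul_vecMulVec, vecMulVec_apply,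
          Pi.single_eq_same, mul_one, Matrix.sub_mulVec]
        simp [vecMulVec_mul, hoff i j hij', hoff j i (Ne.symm hij'), vecMulVec_apply]
        ring
      rw [e1]; exact sub_ne_zero.2 hij
    obtain ⟨m, hm⟩ := exists_largeS ht0 _ hij' hent R1
    refine ⟨g :: List.replicate m (torLc i j t), ?_, ?_⟩
    · intro s hs
      rw [List.mem_cons] at hs
      rcases hs with rfl | hs
      · exact ⟨Subgroup.mem_top _, hgd, hgb⟩
      · rw [List.eq_of_mem_replicate hs]
        exact ⟨Subgroup.mem_top _, torLc_det i j t, torLc_ub hij' ht0⟩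
    · rw [List.prod_cons, List.prod_replicate]
      have : (g * torLc i j t ^ m)⁻¹ * x * (g * torLc i j t ^ m) =
          (torLc i j t ^ m)⁻¹ * (g⁻¹ * x * g) * torLc i j t ^ m := by group
      rwa [this]

theorem locS_gl (hn : 2 ≤ n) : LocS (⊤ : Subgroup (Matrix (Fin n) (Fin n) L)ˣ) := by
  intro H _ hH hns g _ hg
  obtain ⟨a, ha0, ha4⟩ := H710.exists_pow_ne (L := L)
  refine H487.Lin.mat_S2_field ha0 ha4 (by rw [Fintype.card_fin]; exact hn)
    (fun S hS T hT => hH S (Subgroup.mem_top S) hS T hT) ?_ g hg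
  obtain ⟨h, hh, hh'⟩ := hns
  refine ⟨h, hh, fun c hc => hh' c ?_⟩
  rw [hc]
  ext a b
  rw [Matrix.smul_apply, smul_eq_mul]
  by_cases hab : a = b
  · subst hab; rw [one_apply_eq, mul_one, diagonal_apply_eq]
  · rw [one_apply_ne hab, mul_zero, diagonal_apply_ne _ hab]

variable [StarRing L] {H : Matrix (Fin n) (Fin n) L}

open Vale.Agent.P011.H487 in
theorem unbdS_u (hne : ∃ x : L, star x ≠ x) (hst : ∀ x : L, ‖star x‖ = ‖x‖)
    (hH : Hᴴ = H) (hdet : H.det ≠ 0)
    (hiso : ∃ x : Fin n → L, x ≠ 0 ∧ x ⬝ᵥ (H *ᵥ star x) = 0) : UnbdS (UH H) := by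
  classical
  have hJ := isHerm_inv hH
  obtain ⟨t, ht, ht1⟩ := exists_real hst
  have ht0 : t ≠ 0 := by
    rintro rfl
    rw [norm_zero] at ht1
    linarith
  set h := colForm H⁻¹ hJ with hh
  have hnd : h.Nondeg := colForm_nondeg hdet hJ
  obtain ⟨F, hF, hFs⟩ := HForm.exists_finite_iso (h := h) hne (inf_of_norm hst) hnd
    (colForm_iso hH hdet hJ hiso)
  -- the torus elements
  have htor : ∀ z : Fin n → L, ∃ τ : (Matrix (Fin n) (Fin n) L)ˣ, z ∈ F →
      τ ∈ UH H ∧ (τ : Matrix (Fin n) (Fin n) L).det = 1 ∧ unitEquiv τ z = t • z := by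
    intro z
    by_cases hz : z ∈ F
    · obtain ⟨f, p⟩ := HForm.exists_hyp hne hnd (hF z hz).1 (hF z hz).2
      obtain ⟨g, hg, hg1, -, -⟩ := p.tor hne ht0 ht
      obtain ⟨τ, hτ⟩ := unitEquiv.surjective g
      refine ⟨τ, fun _ => ⟨(unitEquiv_mem_U hdet hJ τ).1 ?_, (det_unitEquiv τ).1 ?_,
        by rw [hτ, hg1]⟩⟩
      · rw [hτ]
        exact h.T_le_U hg
      · rw [hτ]
        exact HForm.det_T hg
    · exact ⟨1, fun h => absurd h hz⟩
  choose τ hτ using htor
  let N : Matrix (Fin n) (Fin n) L → ℝ := fun X => ∑ i, ∑ j, ‖X i j‖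
  have hN0 : ∀ X, 0 ≤ N X := fun X =>
    Finset.sum_nonneg fun _ _ => Finset.sum_nonneg fun _ _ => norm_nonneg _
  have hN : ∀ X i j, ‖X i j‖ ≤ N X := fun X i j =>
    (Finset.single_le_sum (f := fun j => ‖X i j‖) (fun _ _ => norm_nonneg _)
      (Finset.mem_univ j)).trans
    (Finset.single_le_sum (f := fun i => ∑ j, ‖X i j‖)
      (fun _ _ => Finset.sum_nonneg fun _ _ => norm_nonneg _) (Finset.mem_univ i))
  let Rz : (Fin n → L) → ℝ := fun z => N (τ z : Matrix (Fin n) (Fin n) L) +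
    N (((τ z)⁻¹ : (Matrix (Fin n) (Fin n) L)ˣ) : Matrix (Fin n) (Fin n) L)
  have hRz0 : ∀ z, 0 ≤ Rz z := fun z => add_nonneg (hN0 _) (hN0 _)
  refine ⟨∑ z ∈ F, Rz z, fun x hx hxs R1 => ?_⟩
  -- an isotropic vector detecting x
  have hex : ∃ z ∈ F, h.b (unitEquiv x z) z ≠ 0 := by
    by_contra hcon
    push Not at hcon
    obtain ⟨c, hc⟩ := hFs (unitEquiv x : (Fin n → L) →ₗ[L] (Fin n → L)) hcon
    apply hxs c
    apply Matrix.ext_of_mulVec_single
    intro j
    rw [smul_mulVec, one_mulVec]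
    exact hc _
  obtain ⟨z, hz, hzx⟩ := hex
  obtain ⟨hτU, hτd, hτz⟩ := hτ z hz
  -- the constant
  set C : ℝ := ∑ i, ‖z i‖ * ∑ j, ‖H⁻¹ i j‖ * ∑ k, ‖z k‖ with hC
  have hbound : ∀ X : Matrix (Fin n) (Fin n) L, Eb R1 X → ‖h.b (X *ᵥ z) z‖ ≤ C * R1 := by
    intro X hX
    rw [hh, colForm_b, hC, Finset.sum_mul]
    change ‖∑ i, star z i * (H⁻¹ *ᵥ (X *ᵥ z)) i‖ ≤ _
    refine (norm_sum_le _ _).trans (Finset.sum_le_sum fun i _ => ?_)
    rw [norm_mul, Pi.star_apply, hst, mul_assoc]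
    refine mul_le_mul_of_nonneg_left ?_ (norm_nonneg _)
    rw [Finset.sum_mul]
    change ‖∑ j, H⁻¹ i j * (X *ᵥ z) j‖ ≤ _
    refine (norm_sum_le _ _).trans (Finset.sum_le_sum fun j _ => ?_)
    rw [norm_mul, mul_assoc]
    refine mul_le_mul_of_nonneg_left ?_ (norm_nonneg _)
    rw [Finset.sum_mul]
    change ‖∑ k, X j k * z k‖ ≤ _
    refine (norm_sum_le _ _).trans (Finset.sum_le_sum fun k _ => ?_)
    rw [norm_mul, mul_comm]
    exact mul_le_mul_of_nonneg_left (hX j k) (norm_nonneg _)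
  -- the power
  obtain ⟨m, hm⟩ : ∃ m : ℕ, C * R1 < (‖t‖ ^ 2) ^ m * ‖h.b (unitEquiv x z) z‖ := by
    have h1 : Filter.Tendsto (fun m : ℕ => (‖t‖ ^ 2) ^ m * ‖h.b (unitEquiv x z) z‖) Filter.atTop
        Filter.atTop := by
      refine Filter.Tendsto.atTop_mul_const (norm_pos_iff.2 hzx) ?_
      refine tendsto_pow_atTop_atTop_of_one_lt ?_
      nlinarith
    obtain ⟨m, hm⟩ := (h1.eventually_gt_atTop (C * R1)).exists
    exact ⟨m, hm⟩
  refine ⟨List.replicate m (τ z), fun s hs => ?_, fun hEb => ?_⟩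
  · rw [List.eq_of_mem_replicate hs]
    have hle : Rz z ≤ ∑ z ∈ F, Rz z := Finset.single_le_sum (fun z _ => hRz0 z) hz
    refine ⟨hτU, hτd, fun i j => ?_, fun i j => ?_⟩
    · exact (hN _ i j).trans ((le_add_of_nonneg_right (hN0 _)).trans hle)
    · exact (hN _ i j).trans ((le_add_of_nonneg_left (hN0 _)).trans hle)
  · rw [List.prod_replicate] at hEb
    have hpow : ∀ m : ℕ, unitEquiv (τ z ^ m) z = t ^ m • z := by
      intro m
      induction m with
      | zero => rw [pow_zero, pow_zero, one_smul, map_one]; rfl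
      | succ m ih =>
        rw [pow_succ, map_mul, LinearEquiv.mul_apply, hτz, map_smul, ih, smul_smul, pow_succ,
          mul_comm]
    have hP : unitEquiv (τ z ^ m) ∈ h.U :=
      (unitEquiv_mem_U hdet hJ _).2 ((UH H).pow_mem hτU m)
    have h1 := hbound _ hEb
    rw [← unitEquiv_apply, map_mul, map_mul, map_inv, LinearEquiv.mul_apply,
      LinearEquiv.mul_apply, h.b_inv hP, hpow, map_smul, h.smul_left, h.smul_right, norm_mul,
      norm_mul, hst, norm_pow, ← mul_assoc, ← mul_pow, ← pow_two] at h1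
    exact absurd hm (not_lt.2 h1)

open Vale.Agent.P011.H487 in
theorem locS_u (hne : ∃ x : L, star x ≠ x) (hst : ∀ x : L, ‖star x‖ = ‖x‖)
    (hH : Hᴴ = H) (hdet : H.det ≠ 0)
    (hiso : ∃ x : Fin n → L, x ≠ 0 ∧ x ⬝ᵥ (H *ᵥ star x) = 0) : LocS (UH H) := by
  intro Γ hΓ hnorm hns g hg hgd
  obtain ⟨t, ht, ht1⟩ := exists_real hst
  have ht0 : t ≠ 0 := by
    rintro rfl
    rw [norm_zero] at ht1
    linarith
  refine mat_NS2 hne ⟨t, ht0, ht, fun h4 => ?_⟩ hH hdet hiso (fun T hT => hΓ hT)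
    (fun S hS hSd T hT => hnorm S hS hSd T hT) hns g hg hgd
  have : ‖t‖ ^ 4 = 1 := by rw [← norm_pow, h4, norm_one]
  have h2 : 1 < ‖t‖ ^ 4 := one_lt_pow₀ ht1 (by norm_num)
  linarith

end loc

variable {k K A Ω : Type} [Field k] [GFF k] [Field K] [StarRing K] [Ring A] [StarRing A]
  [Algebra k K] [Algebra k A] [Algebra K A] [IsScalarTower k K A] [StarModule K A] {n N : ℕ}
  [Field Ω] [Algebra K Ω]

/-- The local model at a nonsplit place. -/
theorem lm_nonsplitS (hk : IsGlobalFunctionField k) (hA : Anis k K A n) (hn : 3 ≤ n)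
    (f : A →ₐ[K] Matrix (Fin n) (Fin n) Ω) (B : Basis (Fin N) k A) {v : Place k}
    {L : Type} [NontriviallyNormedField L] [ProperSpace L] [IsUltrametricDist L] [StarRing L]
    [Algebra v.comp L] {φ : K →+* L} (hst : ∀ x : L, ‖star x‖ = ‖x‖)
    (hφs : ∀ x, φ (star x) = star (φ x)) (hd : DenseRange φ)
    (hφ : ∀ c : k, φ (algebraMap k K c) = algebraMap v.comp L (algebraMap k v.comp c))
    (hnorm : ∀ c : v.comp, ‖algebraMap v.comp L c‖ = ‖c‖) (hfin : finrank v.comp L = 2)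
    {g : A →+* Matrix (Fin n) (Fin n) L}
    (hg : ∀ c : K, g (algebraMap K A c) = algebraMap L _ (φ c)) :
    ∃ E : Subgroup (Matrix (Fin n) (Fin n) L)ˣ, LM f B v E g ∧ UnbdS E ∧ LocS E := by
  have hcen := hA.central
  have hsim := hA.simple
  have hn0 : n ≠ 0 := by omega
  have : NeZero n := ⟨hn0⟩
  have hne : ∃ x : L, star x ≠ x := by
    obtain ⟨x, hx⟩ := hA.star_ne
    refine ⟨φ x, fun h => hx (φ.injective ?_)⟩
    rw [hφs, h]
  obtain ⟨H, hH, hdet, hgH⟩ := H756.exists_herm hn0 hA.finrank_eq hne φ hφs g hg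
  have hiso := H308.isotropic hk hA.fixed hA.star_ne hst φ hφs hd hn hH
  have hcs : Continuous (star : L → L) := by
    have h1 : Isometry (star : L → L) := Isometry.of_dist_eq fun x y => by
      rw [dist_eq_norm, dist_eq_norm, ← star_sub, hst]
    exact h1.continuous
  refine ⟨UH H, ?_, unbdS_u hne hst hH hdet hiso, locS_u hne hst hH hdet hiso⟩
  exact
    { closed := by
        have hc : Continuous fun T : (Matrix (Fin n) (Fin n) L)ˣ =>
            (T : Matrix (Fin n) (Fin n) L) * H * (T : Matrix (Fin n) (Fin n) L)ᴴ := by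
          have h2 : Continuous fun T : (Matrix (Fin n) (Fin n) L)ˣ =>
              (T : Matrix (Fin n) (Fin n) L)ᴴ := by
            refine continuous_matrix fun i j => ?_
            exact hcs.comp (Units.continuous_val.matrix_elem j i)
          exact (Units.continuous_val.mul continuous_const).mul h2
        exact isClosed_eq hc continuous_const
      mem := fun u => by
        rw [mem_UH]
        change g ((u : Aˣ) : A) * H * (g ((u : Aˣ) : A))ᴴ = H
        rw [mul_assoc, ← hgH, ← mul_assoc, ← map_mul, ua_mul_star, map_one, one_mul]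
      dense := H800.dense_u hA hst φ hφs hd hg hH hdet hgH
      det := fun x hx => (det_eq_one_iff hA hn0 φ hg f x).mp hx
      inj := RingHom.injective g
      up := exists_up B v φ (fun c => by rw [hφ, hnorm, norm_alg]) hg
      lo := exists_lo_nonsplit hA hn0 B hd hφ hnorm hfin hg
      unbd := H487.unbd_u hne hst hH hdet hiso
      loc := H487.locN_u hne hst hH hdet hiso }

/-- Local models at almost all places. -/
theorem exists_modelsS (hk : IsGlobalFunctionField k) (hA : Anis k K A n) (hn : 3 ≤ n)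
    (f : A →ₐ[K] Matrix (Fin n) (Fin n) Ω) (B : Basis (Fin N) k A) :
    ∃ T : Finset (Place k), ∀ v ∉ T, ∃ (L : Type) (_ : NontriviallyNormedField L)
      (_ : ProperSpace L) (_ : IsUltrametricDist L) (E : Subgroup (Matrix (Fin n) (Fin n) L)ˣ)
      (g : A →+* Matrix (Fin n) (Fin n) L), LM f B v E g ∧ UnbdS E ∧ LocS E := by
  have hcen := hA.central
  have hsim := hA.simple
  have hn0 : n ≠ 0 := by omega
  obtain ⟨T, hT⟩ := exists_split_ae (k := k) (A := A) hA.fixed hn0 hA.finrank_eq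
  refine ⟨T, fun v hv => ?_⟩
  by_cases hs : Nonempty (K →ₐ[k] v.comp)
  · obtain ⟨φ⟩ := hs
    let _ := nnfPlace v
    obtain ⟨g, hg⟩ := hT v hv v.comp (φ : K →+* v.comp) (fun c => by
      change ‖φ (algebraMap k K c)‖ = _
      rw [φ.commutes, norm_alg])
    exact ⟨v.comp, nnfPlace v, inferInstance, inferInstance, ⊤, g,
      lm_split hA (by omega) f B hg, unbdS_gl (by omega), locS_gl (by omega)⟩
  · rw [not_nonempty_iff] at hs
    obtain ⟨L, _, _, _, _, _, φ, h1, h2, h3, h4, h5, h6⟩ :=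
      exists_quad_field hA.fixed hA.star_ne v hs
    obtain ⟨g, hg⟩ := hT v hv L φ (fun c => by rw [h4, h5, norm_alg])
    obtain ⟨E, hE⟩ := lm_nonsplitS hk hA hn f B h1 h2 h3 h4 h5 h6 hg
    exact ⟨L, inferInstance, inferInstance, inferInstance, E, g, hE⟩

theorem conjLc_clo {X : Type} [Group X] [TopologicalSpace X] [IsTopologicalGroup X] {S : Set X}
    {M : Subgroup X} (h : ∀ a ∈ S, ∀ x ∈ M, a * x * a⁻¹ ∈ M) :
    ∀ a ∈ closure S, ∀ x ∈ M.topologicalClosure, a * x * a⁻¹ ∈ M.topologicalClosure :=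
  fun _ ha _ hx => map_mem_closure₂' (f := fun a x : X => a * x * a⁻¹) (fun _ => by fun_prop)
    (fun _ => by fun_prop) ha hx h

/-- The special unitary group is dense in the elements of determinant one of the model. -/
theorem dense_su {f : A →ₐ[K] Matrix (Fin n) (Fin n) Ω} {B : Basis (Fin N) k A} {v : Place k}
    {L : Type} [NontriviallyNormedField L] {E : Subgroup (Matrix (Fin n) (Fin n) L)ˣ}
    {g : A →+* Matrix (Fin n) (Fin n) L} (h : LM f B v E g) (hnc : ∃ u ∈ GA f, u ∈ nzU A) :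
    tgE E ⊆ closure (h.iota '' (GA f : Set (UA A))) := by
  obtain ⟨u, hu, hun⟩ := hnc
  refine h.app_loc ((GA f).map h.iota).topologicalClosure (conjLc_clo ?_)
    ⟨h.iota u, Subgroup.le_topologicalClosure _ (Subgroup.mem_map_of_mem _ hu), h.ncE_of hun⟩
  rintro _ ⟨a, rfl⟩ _ ⟨x, hx, rfl⟩
  rw [← map_inv, ← map_mul, ← map_mul]
  exact Subgroup.mem_map_of_mem _ ((inferInstance : (GA f).Normal).conj_mem x hx a)

/-- The same for the noncentral normal subgroups. -/
theorem dense_normal {f : A →ₐ[K] Matrix (Fin n) (Fin n) Ω} {B : Basis (Fin N) k A} {v : Place k}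
    {L : Type} [NontriviallyNormedField L] {E : Subgroup (Matrix (Fin n) (Fin n) L)ˣ}
    {g : A →+* Matrix (Fin n) (Fin n) L} (h : LM f B v E g) (hl : LocS E) {M : Subgroup (UA A)}
    (hM : M ≤ GA f) (hn : ∀ γ ∈ GA f, ∀ x ∈ M, γ * x * γ⁻¹ ∈ M) (hnc : ∃ u ∈ M, u ∈ nzU A) :
    tgE E ⊆ closure (h.iota '' (M : Set (UA A))) := by
  obtain ⟨u, hu, hun⟩ := hnc
  have hd := dense_su h ⟨u, hM hu, hun⟩
  have hc : ∀ a ∈ closure (h.iota '' (GA f : Set (UA A))),
      ∀ x ∈ (M.map h.iota).topologicalClosure, a * x * a⁻¹ ∈ (M.map h.iota).topologicalClosure := by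
    refine conjLc_clo ?_
    rintro _ ⟨a, ha, rfl⟩ _ ⟨x, hx, rfl⟩
    rw [← map_inv, ← map_mul, ← map_mul]
    exact Subgroup.mem_map_of_mem _ (hn a ha x hx)
  intro y hy
  have h1 : ∀ e ∈ E, (e : Matrix (Fin n) (Fin n) L).det = 1 →
      ∀ b ∈ (M.map h.iota).topologicalClosure.map E.subtype,
        e * b * e⁻¹ ∈ (M.map h.iota).topologicalClosure.map E.subtype := by
    intro e he hed b' hb'
    obtain ⟨b, hb, hbb⟩ := Subgroup.mem_map.mp hb'
    refine Subgroup.mem_map.mpr ⟨(⟨e, he⟩ : E) * b * (⟨e, he⟩ : E)⁻¹, hc _ (hd hed) _ hb, ?_⟩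
    rw [map_mul, map_mul, map_inv, hbb, Subgroup.subtype_apply]
  have h3 := hl _ (Subgroup.map_subtype_le _) h1 ⟨_, Subgroup.mem_map_of_mem E.subtype
    (Subgroup.le_topologicalClosure _ (Subgroup.mem_map_of_mem _ hu)), h.ncE_of hun⟩ y y.2 hy
  obtain ⟨y', hy', hyy⟩ := Subgroup.mem_map.mp h3
  have e : y' = y := Subtype.ext hyy
  rw [← e]
  exact hy'

end Vale.Agent.P011Z.FF
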