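import Vale.Agent.P011Z.FF.LocF.Abs
import Vale.Agent.P011.H698.RemFF
import Vale.Agent.P011.H698.LocNS
import Vale.Agent.P011.H738.SolvFF

/-!
The local structure at all places.
-/

open Module Matrix Topology TensorProduct

namespace Vale.Agent.P011Z.FF

open Vale.Agent.P011 Vale.Agent.P011.H738 Vale.Agent.P011.H271 Vale.Agent.P011.H698
  Vale.Agent.P011.H961 Vale.Agent.P011.H74

variable {k K A Ω : Type} [Field k] [Field K] [StarRing K] [Ring A] [StarRing A]
  [Algebra k K] [Algebra k A] [Algebra K A] [IsScalarTower k K A] [StarModule K A] {n N : ℕ}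
  [Field Ω] [Algebra K Ω]

/-- There is a subgroup `E` of the local unitary group which is contained in every noncentral
subgroup normalised by it, and the special unitary group is bounded modulo `E`. -/
def LocF [StarLinR k A] (f : A →ₐ[K] Matrix (Fin n) (Fin n) Ω) (B : Basis (Fin N) k A)
    (v : Place k) : Prop :=
  ∃ E : Subgroup (UA (BR B v.comp)),
    (∀ H : Subgroup (UA (BR B v.comp)), (∀ e ∈ E, ∀ x ∈ H, e * x * e⁻¹ ∈ H) →
      (∃ x ∈ H, x ∈ nzU (BR B v.comp)) → E ≤ H) ∧
    ∃ C : Set (UA (BR B v.comp)), IsCompact C ∧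
      ∀ g ∈ GA f, ∃ e ∈ E, e⁻¹ * jUA (bcrT B v.comp) g ∈ C

variable [GFF k] [StarLinR k A]

theorem locF_split (hA : Anis k K A n) (hn : n ≠ 0) (f : A →ₐ[K] Matrix (Fin n) (Fin n) Ω)
    (B : Basis (Fin N) k A) {v : Place k} (φ : K →ₐ[k] v.comp) : LocF f B v := by
  classical
  let _ : Algebra K v.comp := (φ : K →+* v.comp).toAlgebra
  let _ := nnfPlace v
  have hcen := hA.central
  have hsim := hA.simple
  have hRs : IsSimpleRing (v.comp ⊗[K] A) := H268.isSimpleRing_baseChange
  have hfr : finrank v.comp (v.comp ⊗[K] A) = n ^ 2 := by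
    rw [Module.finrank_baseChange, hA.finrank_eq]
  have hfd : FiniteDimensional K A :=
    FiniteDimensional.of_finrank_pos (by rw [hA.finrank_eq]; positivity)
  let g : A →+* v.comp ⊗[K] A := (Algebra.TensorProduct.includeRight : A →ₐ[K] _).toRingHom
  have hgv : ∀ x : A, g x = 1 ⊗ₜ[K] x := fun _ => rfl
  have hφ : ∀ c : K, g (algebraMap K A c) = algebraMap v.comp (v.comp ⊗[K] A) (φ c) := by
    intro c
    rw [hgv, Algebra.algebraMap_eq_smul_one, ← TensorProduct.smul_tmul,
      Algebra.TensorProduct.algebraMap_apply, Algebra.smul_def, mul_one]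
    rfl
  have hg : ∀ (c : k) (x : A), g (c • x) = algebraMap k v.comp c • g x := by
    intro c x
    rw [← algebraMap_smul K c x, Algebra.smul_def, map_mul, hφ, φ.commutes, Algebra.smul_def]
  have hspan : Submodule.span v.comp (Set.range g) = ⊤ := by
    rw [eq_top_iff]
    rintro y -
    induction y using TensorProduct.induction_on with
    | zero => exact Submodule.zero_mem _
    | tmul r a =>
      have h1 : r ⊗ₜ[K] a = r • ((1 : v.comp) ⊗ₜ[K] a) := by
        rw [TensorProduct.smul_tmul', smul_eq_mul, mul_one]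
      rw [h1]
      exact Submodule.smul_mem _ _ (Submodule.subset_span ⟨a, rfl⟩)
    | add y y' h h' => exact Submodule.add_mem _ h h'
  obtain ⟨E, h1, C, h2, h3⟩ := loc_of_bij (bcrT B v.comp)
    (Algebra.TensorProduct.basis v.comp (Module.finBasis K A)) (extA (bcrT B v.comp) hg)
    (fun c x => (extAl (bcrT B v.comp) g).map_smul c x)
    (bij_split (bcrT B v.comp) hA φ hφ hg hspan hfr hn)
  refine ⟨E, h1, C, h2, fun u hu => h3 _ ?_⟩
  have hf : ∀ c : K, (f : A →+* Matrix (Fin n) (Fin n) Ω) (algebraMap K A c)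
      = algebraMap Ω _ (algebraMap K Ω c) := fun c =>
    (f.commutes c).trans (IsScalarTower.algebraMap_apply K Ω _ c)
  have h4 := det_base hA.finrank_eq hn (algebraMap K Ω) _ hf
    (H519.span_range_eq_top hA.finrank_eq hn _ _ hf) ((u : Aˣ) : A)
  have h5 : ((f : A →+* Matrix (Fin n) (Fin n) Ω) ((u : Aˣ) : A)).det = 1 := mem_GA.1 hu
  rw [h5, one_pow, map_eq_one_iff _ (algebraMap K Ω).injective] at h4
  have h6 : Algebra.lmul v.comp (v.comp ⊗[K] A) (g ((u : Aˣ) : A))
      = (LinearMap.mulLeft K ((u : Aˣ) : A)).baseChange v.comp := by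
    ext x
    simp [hgv]
  rw [jUA_coe, extA_apply, extAl_j _ hg, Algebra.norm_apply, h6, LinearMap.det_baseChange, h4,
    map_one]

theorem locF_nonsplit (hk : IsGlobalFunctionField k) (hA : Anis k K A n) (hn : 3 ≤ n)
    (f : A →ₐ[K] Matrix (Fin n) (Fin n) Ω) (B : Basis (Fin N) k A) {v : Place k}
    (hv : IsEmpty (K →ₐ[k] v.comp)) : LocF f B v := by
  classical
  have hn0 : n ≠ 0 := by omega
  obtain ⟨L, _, _, _, _, _, φ, hst, hφs, hd, hφk, hLn, hL⟩ :=
    exists_quad_field hA.fixed hA.star_ne v hv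
  obtain ⟨g, hgφ⟩ := H738.splitNS hA hn0 v hv L φ hst hφs hd hφk hLn hL
  have hcen := hA.central
  have hsim := hA.simple
  have hne : ∃ x : L, star x ≠ x := by
    obtain ⟨w, hw⟩ := hA.star_ne
    refine ⟨φ w, fun h => hw (φ.injective ?_)⟩
    rw [hφs, h]
  have hfix : ∀ c : v.comp, star (algebraMap v.comp L c) = algebraMap v.comp L c := by
    have hiso1 : Isometry (algebraMap v.comp L) := AddMonoidHomClass.isometry_of_norm _ hLn
    have hiso2 : Isometry (starRingEnd L) := AddMonoidHomClass.isometry_of_norm _ hst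
    have h1 : (fun c : v.comp => star (algebraMap v.comp L c)) = fun c => algebraMap v.comp L c := by
      refine (H565.denseRange_comp v).equalizer (hiso2.comp hiso1).continuous hiso1.continuous ?_
      funext c
      change star (algebraMap v.comp L (algebraMap k v.comp c)) = _
      rw [← hφk, ← hφs, (hA.fixed _).mpr ⟨c, rfl⟩]
      exact hφk c
    exact fun c => congrFun h1 c
  obtain ⟨H, hH, hdet, hgH⟩ := H756.exists_herm hn0 hA.finrank_eq hne φ hφs g hgφ
  have hg : ∀ (c : k) (x : A), g (c • x) = algebraMap k v.comp c • g x := by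
    intro c x
    rw [← algebraMap_smul K c x, Algebra.smul_def, map_mul, hgφ, hφk, ← algebraMap_smul L
      (algebraMap k v.comp c) (g x), Algebra.smul_def]
  have hspan := H519.span_range_eq_top hA.finrank_eq hn0 φ g hgφ
  have key : ∀ x : BR B v.comp, extAl (bcrT B v.comp) g (star x) * H =
      H * (extAl (bcrT B v.comp) g x)ᴴ := by
    intro x
    let c := bcrT B v.comp
    change extAl c g (star x) * H = H * (extAl c g x)ᴴ
    rw [← c.b.sum_repr x, star_sum, map_sum, map_sum, conjTranspose_sum, Finset.sum_mul,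
      Finset.mul_sum]
    refine Finset.sum_congr rfl fun i _ => ?_
    rw [c.star_smul, map_smul, map_smul, c.b_apply, ← c.j_star, extAl_j c hg, extAl_j c hg,
      smul_mul_assoc, hgH]
    have h1 : (c.b.repr x i • g (c.a i))ᴴ = c.b.repr x i • (g (c.a i))ᴴ := by
      rw [← algebraMap_smul L (c.b.repr x i) (g (c.a i)), conjTranspose_smul, hfix,
        algebraMap_smul]
    rw [h1, mul_smul_comm]
  obtain ⟨E, h1, h2⟩ := loc_of_herm (extA (bcrT B v.comp) hg)
    (bij_nonsplit (bcrT B v.comp) hA hn0 hv hφk hL hgφ hg hspan) hdet key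
    (locS_u hne hst hH hdet (H308.isotropic hk hA.fixed hA.star_ne hst φ hφs hd hn hH))
  refine ⟨E, h1, {1}, isCompact_singleton, fun u hu => ⟨_, h2 _ ?_, inv_mul_cancel _⟩⟩
  rw [jUA_coe, extA_apply, extAl_j _ hg]
  exact (det_eq_one_iff hA hn0 φ hgφ f _).1 (mem_GA.1 hu)

theorem locF (hk : IsGlobalFunctionField k) (hA : Anis k K A n) (hn : 3 ≤ n)
    (f : A →ₐ[K] Matrix (Fin n) (Fin n) Ω) (B : Basis (Fin N) k A) (v : Place k) :
    LocF f B v :=
  (isEmpty_or_nonempty (K →ₐ[k] v.comp)).elim (locF_nonsplit hk hA hn f B)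
    fun ⟨φ⟩ => locF_split hA (by omega) f B φ

end Vale.Agent.P011Z.FF
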