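import Vale.Agent.P011.H698.MatComm

/-!
The group of the units of a simple algebra over a local field: the elements of norm one are bounded
modulo the elementary group.
-/

open Module Matrix

namespace Vale.Agent.P011Z.FF

namespace Simple

open Vale.Agent.P011.H487.Lin Vale.Agent.P011.H698

lemma bdd_of_mul {F V : Type*} [NontriviallyNormedField F] [NormedAddCommGroup V]
    [NormedSpace F V] [ProperSpace V] (ν : V → ℝ) (hν : Continuous ν)
    (hpos : ∀ x, x ≠ 0 → 0 < ν x) (h0 : ν 0 = 0) (x1 : V)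
    (hsm : ∀ (a : F) (x : V), ν (a • x) = ν (a • x1) * ν x) :
    ∃ C : ℝ, ∀ x, ν x = 1 → ‖x‖ ≤ C := by
  obtain ⟨c, hc⟩ := NormedField.exists_one_lt_norm F
  have hc0 : 0 < ‖c‖ := by linarith
  have hK : IsCompact {x : V | 1 / ‖c‖ ≤ ‖x‖ ∧ ‖x‖ ≤ 1} := by
    refine (isCompact_closedBall (0 : V) 1).of_isClosed_subset ?_ fun x hx => ?_
    · exact (isClosed_le continuous_const continuous_norm).inter
        (isClosed_le continuous_norm continuous_const)
    · rw [mem_closedBall_zero_iff]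
      exact hx.2
  obtain ⟨μ, hμ0, hμ⟩ := hK.exists_forall_le' hν.continuousOn (a := 0) fun x hx => hpos x (by
    rintro rfl
    have h1 := hx.1
    rw [norm_zero] at h1
    exact absurd (one_div_pos.2 hc0) (not_lt.2 h1))
  have hcont : ContinuousAt (fun a : F => ν (a • x1)) 0 :=
    (hν.comp (continuous_id.smul continuous_const)).continuousAt
  have hev := hcont.eventually (gt_mem_nhds (by simpa only [zero_smul, h0] using hμ0 :
    (fun a : F => ν (a • x1)) 0 < μ))
  obtain ⟨δ, hδ, hδ'⟩ := Metric.eventually_nhds_iff.1 hev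
  refine ⟨1 / δ, fun x hx => ?_⟩
  have hx0 : x ≠ 0 := by
    rintro rfl
    rw [h0] at hx
    exact zero_ne_one hx
  obtain ⟨d, -, hd1, hd2, -⟩ := rescale_to_shell hc one_pos hx0
  have h1 := hμ (d • x) ⟨hd2, hd1.le⟩
  rw [hsm, hx, mul_one] at h1
  have h2 : δ ≤ ‖d‖ := by
    by_contra h3
    exact absurd (hδ' (by rw [dist_zero_right]; exact not_le.1 h3)) (not_lt.2 h1)
  rw [norm_smul] at hd1
  rw [le_div_iff₀ hδ]
  nlinarith [norm_nonneg x]

lemma norm_unipotent {F R ι : Type*} [Field F] [Ring R] [Algebra F R] [Fintype ι]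
    (b : Basis ι F R) {x : R} (hx : x * x = 0) : Algebra.norm F (1 + x) = 1 := by
  classical
  rw [Algebra.norm_eq_matrix_det b, map_add, map_one]
  obtain ⟨M, hM⟩ : ∃ M, M = Algebra.leftMulMatrix b x := ⟨_, rfl⟩
  rw [← hM]
  have h1 : IsNilpotent M := ⟨2, by rw [pow_two, hM, ← map_mul, hx, map_zero]⟩
  obtain ⟨r, -, hr⟩ := Polynomial.isUnit_iff.1 (isUnit_charpolyRev_of_isNilpotent h1)
  have h2 := eval_charpolyRev (M := M)
  rw [← hr, Polynomial.eval_C] at h2
  have h3 : Polynomial.eval (-1) M.charpolyRev = det (1 + M) := by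
    rw [charpolyRev, ← Polynomial.coe_evalRingHom, RingHom.map_det]
    congr 1
    ext i j
    by_cases hij : i = j
    · subst hij
      simp
    · simp [hij]
  rw [← h3, ← hr, Polynomial.eval_C, h2]

/-- the dilation of one coordinate -/
def dil {D ι : Type*} [DivisionRing D] [DecidableEq ι] (q : ι) (c : D) : Matrix ι ι D :=
  diagonal (Function.update (fun _ => 1) q c)

lemma dil_mul {D ι : Type*} [DivisionRing D] [Fintype ι] [DecidableEq ι] (q : ι) (c d : D) :
    dil q c * dil q d = dil q (c * d) := by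
  rw [dil, dil, dil, diagonal_mul_diagonal]
  congr 1
  funext i
  by_cases hi : i = q
  · subst hi
    simp
  · simp [hi]

lemma dil_one {D ι : Type*} [DivisionRing D] [DecidableEq ι] (q : ι) : dil q (1 : D) = 1 := by
  rw [dil, Function.update_eq_self, diagonal_one]

lemma dil_eq {D ι : Type*} [DivisionRing D] [DecidableEq ι] (q : ι) (c : D) :
    dil q c = dil q 0 + single q q c := by
  ext i j
  rw [Matrix.add_apply, dil, dil, diagonal_apply, diagonal_apply, single_apply]
  by_cases hij : i = j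
  · subst hij
    by_cases hi : i = q
    · subst hi
      simp
    · simp [hi, Ne.symm hi]
  · rw [if_neg hij, if_neg hij, if_neg, add_zero]
    rintro ⟨rfl, rfl⟩
    exact hij rfl

lemma dil_zero_mul {D ι : Type*} [DivisionRing D] [Fintype ι] [DecidableEq ι] (q : ι) :
    dil q (0 : D) * single q q 1 = 0 := by
  ext i j
  rw [dil, diagonal_mul, single_apply, Matrix.zero_apply]
  by_cases hi : i = q
  · subst hi
    simp
  · simp [Ne.symm hi]

lemma dil_bdd {F R ι D κ : Type*} [NontriviallyNormedField F] [ProperSpace F] [Ring R]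
    [Algebra F R] [Fintype ι] (b : Basis ι F R) [DivisionRing D] [Algebra F D] [Module.Finite F D]
    [Fintype κ] [DecidableEq κ] (e : Matrix κ κ D ≃ₐ[F] R) (q : κ) :
    ∃ C : ℝ, ∀ c : D, Algebra.norm F (e (dil q c)) = 1 → ∀ i, ‖b.repr (e (dil q c)) i‖ ≤ C := by
  classical
  have := Module.Finite.of_basis b
  have := Module.Free.of_basis b
  obtain ⟨L, hL⟩ : ∃ L : (Fin (finrank F D) → F) ≃ₗ[F] D,
    L = (Module.finBasis F D).equivFun.symm := ⟨_, rfl⟩
  have hc : ∀ {W : Type _} [AddCommGroup W] [Module F W] [TopologicalSpace W]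
      [IsTopologicalAddGroup W] [ContinuousSMul F W] (f : R →ₗ[F] W),
      Continuous fun x => f (e (dil q (L x))) := by
    intro W _ _ _ _ _ f
    have h1 := LinearMap.continuous_of_finiteDimensional
      (f ∘ₗ e.toLinearMap ∘ₗ singleLinearMap F q q ∘ₗ L.toLinearMap)
    have h2 : (fun x => f (e (dil q (L x)))) = fun x => f (e (dil q 0)) +
        (f ∘ₗ e.toLinearMap ∘ₗ singleLinearMap F q q ∘ₗ L.toLinearMap) x := by
      funext x
      rw [dil_eq, map_add, map_add]
      rfl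
    rw [h2]
    exact continuous_const.add h1
  obtain ⟨C, hC⟩ := bdd_of_mul (F := F) (fun x => ‖Algebra.norm F (e (dil q (L x)))‖)
    (by
      simp only [Algebra.norm_eq_matrix_det b]
      exact (hc (Algebra.leftMulMatrix b).toLinearMap).matrix_det.norm)
    (fun x hx => by
      have h1 : L x ≠ 0 := fun h => hx (L.map_eq_zero_iff.1 h)
      have h2 : Algebra.norm F (e (dil q (L x))) * Algebra.norm F (e (dil q (L x)⁻¹)) = 1 := by
        rw [← map_mul, ← map_mul, dil_mul, mul_inv_cancel₀ h1, dil_one, map_one, map_one]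
      exact norm_pos_iff.2 (left_ne_zero_of_mul_eq_one h2))
    (by
      rw [map_zero, norm_eq_zero, Algebra.norm_apply, LinearMap.det_eq_zero_iff_ker_ne_bot,
        Submodule.ne_bot_iff]
      refine ⟨e (single q q 1), ?_, fun h => ?_⟩
      · rw [LinearMap.mem_ker, Algebra.coe_lmul_eq_mul, LinearMap.mul_apply', ← map_mul,
          dil_zero_mul, map_zero]
      · have h1 := congrFun (congrFun (e.map_eq_zero_iff.1 h) q) q
        rw [single_apply_same] at h1
        exact one_ne_zero h1)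
    (L.symm 1)
    (fun a x => by
      rw [← norm_mul, ← map_mul, ← map_mul, dil_mul, map_smul, map_smul, L.apply_symm_apply,
        smul_mul_assoc, one_mul])
  obtain ⟨C', hC'⟩ := (isCompact_closedBall (0 : Fin (finrank F D) → F) C).exists_bound_of_continuousOn
    (hc b.equivFun.toLinearMap).continuousOn
  refine ⟨C', fun c hc1 i => ?_⟩
  have h1 := hC' (L.symm c) (mem_closedBall_zero_iff.2 (hC _ (by
    rw [L.apply_symm_apply, hc1, norm_one])))
  rw [L.apply_symm_apply] at h1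
  exact (norm_le_pi_norm _ i).trans h1

lemma Em_le {D ι : Type*} [DivisionRing D] [Fintype ι] [DecidableEq ι] {a : D} (ha0 : a ≠ 0)
    (hac : ∀ x : D, a * x = x * a) (ha4 : a ^ 4 ≠ 1) {Γ : Subgroup (Matrix ι ι D)ˣ}
    (hΓ : ∀ t ∈ Em D ι, ∀ T ∈ Γ, t * T * t⁻¹ ∈ Γ)
    (hns : ∃ T ∈ Γ, ∃ Y : Matrix ι ι D, (T : Matrix ι ι D) * Y ≠ Y * T) : Em D ι ≤ Γ := by
  rw [Em, Subgroup.closure_le]
  rintro _ ⟨r, x, h, rfl⟩
  by_cases hι : 2 ≤ Fintype.card ι
  · refine mat_S2 ha0 hac ha4 hι (fun r x h T hT => hΓ _ (tvm_mem_Em r x h) T hT) ?_ r x h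
    obtain ⟨T, hT, Y, hY⟩ := hns
    refine ⟨T, hT, fun c hc hTc => hY ?_⟩
    rw [hTc]
    ext i l
    rw [diagonal_mul, mul_diagonal]
    exact hc _
  · have : Subsingleton ι := Fintype.card_le_one_iff_subsingleton.1 (by omega)
    have h1 : tvm r x h = 1 := by
      apply Units.ext
      rw [tvm_val, Units.val_one, add_eq_left]
      ext i j
      rw [dotProduct, Fintype.sum_subsingleton _ i, mul_eq_zero] at h
      rw [vecMulVec_apply, Subsingleton.elim j i, Matrix.zero_apply, mul_eq_zero]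
      exact h.symm
    rw [h1]
    exact Γ.one_mem

lemma norm_Em {F R ι D κ : Type*} [Field F] [Ring R] [Algebra F R] [Fintype ι] (b : Basis ι F R)
    [DivisionRing D] [Algebra F D] [Fintype κ] [DecidableEq κ] (e : Matrix κ κ D ≃ₐ[F] R)
    {t : (Matrix κ κ D)ˣ} (ht : t ∈ Em D κ) : Algebra.norm F (e t) = 1 := by
  induction ht using Subgroup.closure_induction with
  | mem t ht =>
    obtain ⟨r, x, h, rfl⟩ := ht
    rw [tvm_val, map_add, map_one]
    refine norm_unipotent b ?_
    have h1 := (tvm r x h).mul_inv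
    rw [tvm_val, tvm_inv_val] at h1
    have h2 : vecMulVec r x * vecMulVec r x =
        1 - (1 + vecMulVec r x) * (1 - vecMulVec r x) := by noncomm_ring
    rw [← map_mul, h2, h1, sub_self, map_zero]
  | one => rw [Units.val_one, map_one, map_one]
  | mul s t _ _ hs ht => rw [Units.val_mul, map_mul, map_mul, hs, ht, mul_one]
  | inv t _ ht =>
    have h1 : Algebra.norm F (e t) * Algebra.norm F (e (t⁻¹ : (Matrix κ κ D)ˣ)) = 1 := by
      rw [← map_mul, ← map_mul, t.mul_inv, map_one, map_one]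
    rwa [ht, one_mul] at h1

end Simple

open Simple Vale.Agent.P011.H698 in
theorem loc_simple {F R ι : Type} [NontriviallyNormedField F] [ProperSpace F] [Ring R]
    [Algebra F R] [IsSimpleRing R] [Fintype ι] (b : Basis ι F R) :
    ∃ E : Subgroup Rˣ, (∀ H : Subgroup Rˣ, (∀ e ∈ E, ∀ x ∈ H, e * x * e⁻¹ ∈ H) →
        (∃ x ∈ H, ∃ y : R, (x : R) * y ≠ y * x) → E ≤ H) ∧
      ∃ C : ℝ, ∀ g : Rˣ, Algebra.norm F (g : R) = 1 → ∃ e ∈ E, ∀ i,
        ‖b.repr ((e⁻¹ * g : Rˣ) : R) i‖ ≤ C ∧ ‖b.repr (((e⁻¹ * g)⁻¹ : Rˣ) : R) i‖ ≤ C := by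
  have := Module.Finite.of_basis b
  have : IsArtinianRing R := IsArtinianRing.of_finite F R
  obtain ⟨m, hm, D, _, _, _, ⟨e0⟩⟩ := IsSimpleRing.exists_algEquiv_matrix_divisionRing_finite F R
  obtain ⟨e, -⟩ : ∃ e : Matrix (Fin m) (Fin m) D ≃ₐ[F] R, e = e0.symm := ⟨_, rfl⟩
  let e' : (Matrix (Fin m) (Fin m) D)ˣ ≃* Rˣ := Units.mapEquiv e.toMulEquiv
  have he' : ∀ u, ((e' u : Rˣ) : R) = e u := fun _ => rfl
  obtain ⟨a, ha⟩ := NormedField.exists_one_lt_norm F
  have ha0 : a ≠ 0 := by
    rintro rfl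
    rw [norm_zero] at ha
    linarith
  have ha4 : a ^ 4 ≠ 1 := fun h => by
    have h1 := one_lt_pow₀ ha (by norm_num : 4 ≠ 0)
    rw [← norm_pow, h, norm_one] at h1
    exact lt_irrefl _ h1
  refine ⟨(Em D (Fin m)).map e'.toMonoidHom, fun H hH hns => ?_, ?_⟩
  · rw [Subgroup.map_le_iff_le_comap]
    refine Em_le (a := algebraMap F D a) (fun h => ha0 ((algebraMap F D).injective
      (by rw [h, map_zero]))) (fun y => Algebra.commutes a y)
      (fun h => ha4 ((algebraMap F D).injective (by rw [map_pow, h, map_one]))) ?_ ?_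
    · intro t ht T hT
      rw [Subgroup.mem_comap, map_mul, map_mul, map_inv]
      exact hH _ ⟨t, ht, rfl⟩ _ hT
    · obtain ⟨x, hx, y, hy⟩ := hns
      obtain ⟨T, rfl⟩ := e'.surjective x
      obtain ⟨Y, rfl⟩ := e.surjective y
      refine ⟨T, hx, Y, fun h => hy ?_⟩
      rw [he', ← map_mul, ← map_mul, h]
  · obtain ⟨C, hC⟩ := dil_bdd b e (0 : Fin m)
    refine ⟨C, fun g hg => ?_⟩
    obtain ⟨T, rfl⟩ := e'.surjective g
    obtain ⟨t, ht, c, hc⟩ := exists_dilation (0 : Fin m) T⁻¹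
    refine ⟨e' t, ⟨t, ht, rfl⟩, fun i => ?_⟩
    change _ = dil 0 c at hc
    have h1 : (((e' t)⁻¹ * e' T)⁻¹ : Rˣ) = e' (T⁻¹ * t) := by
      rw [_root_.mul_inv_rev, inv_inv, map_mul, map_inv]
    have h2 : Algebra.norm F (e (dil 0 c)) = 1 := by
      have h3 : Algebra.norm F (e (T : Matrix (Fin m) (Fin m) D)) *
          Algebra.norm F (e (dil 0 c)) = 1 := by
        rw [← map_mul, ← map_mul, ← hc, ← Units.val_mul, mul_inv_cancel_left, norm_Em b e ht]
      rwa [← he', hg, one_mul] at h3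
    have hc0 : c ≠ 0 := by
      rintro rfl
      have h3 := dil_zero_mul (D := D) (0 : Fin m)
      rw [← hc, Units.mul_right_eq_zero] at h3
      have h4 := congrFun (congrFun h3 0) 0
      rw [single_apply_same] at h4
      exact one_ne_zero h4
    have h5 : (((T⁻¹ * t)⁻¹ : (Matrix (Fin m) (Fin m) D)ˣ) : Matrix (Fin m) (Fin m) D) =
        dil 0 c⁻¹ := by
      refine Units.inv_eq_of_mul_eq_one_right ?_
      rw [hc, dil_mul, mul_inv_cancel₀ hc0, dil_one]
    have h6 : Algebra.norm F (e (dil 0 c⁻¹)) = 1 := by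
      have h3 : Algebra.norm F (e (dil (0 : Fin m) c)) * Algebra.norm F (e (dil 0 c⁻¹)) = 1 := by
        rw [← map_mul, ← map_mul, dil_mul, mul_inv_cancel₀ hc0, dil_one, map_one, map_one]
      rwa [h2, one_mul] at h3
    constructor
    · rw [← inv_inv ((e' t)⁻¹ * e' T), h1, ← map_inv, he', h5]
      exact hC _ h6 i
    · rw [h1, he', hc]
      exact hC _ h2 i

end Vale.Agent.P011Z.FF
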